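import Vale.Agent.P238.Defs

/-!
P238: number of binary words close to a given word.
-/

namespace Vale.Agent.P238

open Finset

namespace Ball

/-- Alignments of cost at most `k`. -/
inductive Al {α : Type*} : ℕ → List α → List α → Prop
  | nil : Al 0 [] []
  | cons {k : ℕ} {x y : List α} (a : α) : Al k x y → Al k (a :: x) (a :: y)
  | sub {k : ℕ} {x y : List α} (a b : α) : Al k x y → Al (k + 1) (a :: x) (b :: y)
  | ins {k : ℕ} {x y : List α} (b : α) : Al k x y → Al (k + 1) x (b :: y)
  | del {k : ℕ} {x y : List α} (a : α) : Al k x y → Al (k + 1) (a :: x) y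
  | weak {k : ℕ} {x y : List α} : Al k x y → Al (k + 1) x y

variable {α : Type*}

theorem Al.refl (x : List α) : Al 0 x x := by
  induction x with
  | nil => exact Al.nil
  | cons a x ih => exact Al.cons a ih

theorem Al.edit_ins {k : ℕ} {x y : List α} (h : Al k x y) :
    ∀ (u v : List α) (a : α), y = u ++ v → Al (k + 1) x (u ++ a :: v) := by
  induction h with
  | nil =>
    intro u v a hy
    obtain ⟨rfl, rfl⟩ : u = [] ∧ v = [] := by simpa using hy.symm
    exact Al.ins a Al.nil
  | @cons k x y c h ih =>
    intro u v a hy
    cases u with
    | nil =>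
      simp only [List.nil_append] at hy ⊢
      rw [← hy]
      exact Al.ins a (Al.cons c h)
    | cons d u =>
      simp only [List.cons_append, List.cons.injEq] at hy
      obtain ⟨rfl, hy⟩ := hy
      exact Al.cons _ (ih u v a hy)
  | @sub k x y c d h ih =>
    intro u v a hy
    cases u with
    | nil =>
      simp only [List.nil_append] at hy ⊢
      rw [← hy]
      exact Al.ins a (Al.sub c d h)
    | cons e u =>
      simp only [List.cons_append, List.cons.injEq] at hy
      obtain ⟨rfl, hy⟩ := hy
      exact Al.sub _ _ (ih u v a hy)
  | @ins k x y d h ih =>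
    intro u v a hy
    cases u with
    | nil =>
      simp only [List.nil_append] at hy ⊢
      rw [← hy]
      exact Al.ins a (Al.ins d h)
    | cons e u =>
      simp only [List.cons_append, List.cons.injEq] at hy
      obtain ⟨rfl, hy⟩ := hy
      exact Al.ins _ (ih u v a hy)
  | @del k x y c h ih =>
    intro u v a hy
    exact Al.del c (ih u v a hy)
  | @weak k x y h ih =>
    intro u v a hy
    exact Al.weak (ih u v a hy)

theorem Al.edit_del {k : ℕ} {x y : List α} (h : Al k x y) :
    ∀ (u v : List α) (a : α), y = u ++ a :: v → Al (k + 1) x (u ++ v) := by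
  induction h with
  | nil =>
    intro u v a hy
    simp at hy
  | @cons k x y c h ih =>
    intro u v a hy
    cases u with
    | nil =>
      simp only [List.nil_append, List.cons.injEq] at hy ⊢
      rw [← hy.2]
      exact Al.del c h
    | cons d u =>
      simp only [List.cons_append, List.cons.injEq] at hy
      obtain ⟨rfl, hy⟩ := hy
      exact Al.cons _ (ih u v a hy)
  | @sub k x y c d h ih =>
    intro u v a hy
    cases u with
    | nil =>
      simp only [List.nil_append, List.cons.injEq] at hy ⊢
      rw [← hy.2]
      exact Al.weak (Al.del c h)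
    | cons e u =>
      simp only [List.cons_append, List.cons.injEq] at hy
      obtain ⟨rfl, hy⟩ := hy
      exact Al.sub _ _ (ih u v a hy)
  | @ins k x y d h ih =>
    intro u v a hy
    cases u with
    | nil =>
      simp only [List.nil_append, List.cons.injEq] at hy ⊢
      rw [← hy.2]
      exact Al.weak (Al.weak h)
    | cons e u =>
      simp only [List.cons_append, List.cons.injEq] at hy
      obtain ⟨rfl, hy⟩ := hy
      exact Al.ins _ (ih u v a hy)
  | @del k x y c h ih =>
    intro u v a hy
    exact Al.del c (ih u v a hy)
  | @weak k x y h ih =>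
    intro u v a hy
    exact Al.weak (ih u v a hy)

theorem Al.edit_sub {k : ℕ} {x y : List α} (h : Al k x y) :
    ∀ (u v : List α) (a b : α), y = u ++ a :: v → Al (k + 1) x (u ++ b :: v) := by
  induction h with
  | nil =>
    intro u v a b hy
    simp at hy
  | @cons k x y c h ih =>
    intro u v a b hy
    cases u with
    | nil =>
      simp only [List.nil_append, List.cons.injEq] at hy ⊢
      rw [← hy.2]
      exact Al.sub c b h
    | cons d u =>
      simp only [List.cons_append, List.cons.injEq] at hy
      obtain ⟨rfl, hy⟩ := hy
      exact Al.cons _ (ih u v a b hy)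
  | @sub k x y c d h ih =>
    intro u v a b hy
    cases u with
    | nil =>
      simp only [List.nil_append, List.cons.injEq] at hy ⊢
      rw [← hy.2]
      exact Al.weak (Al.sub c b h)
    | cons e u =>
      simp only [List.cons_append, List.cons.injEq] at hy
      obtain ⟨rfl, hy⟩ := hy
      exact Al.sub _ _ (ih u v a b hy)
  | @ins k x y d h ih =>
    intro u v a b hy
    cases u with
    | nil =>
      simp only [List.nil_append, List.cons.injEq] at hy ⊢
      rw [← hy.2]
      exact Al.weak (Al.ins b h)
    | cons e u =>
      simp only [List.cons_append, List.cons.injEq] at hy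
      obtain ⟨rfl, hy⟩ := hy
      exact Al.ins _ (ih u v a b hy)
  | @del k x y c h ih =>
    intro u v a b hy
    exact Al.del c (ih u v a b hy)
  | @weak k x y h ih =>
    intro u v a b hy
    exact Al.weak (ih u v a b hy)

theorem al_of_reach {k : ℕ} {x y : List α} (h : Reach k x y) : Al k x y := by
  induction h with
  | refl x => exact Al.refl x
  | @step k x y z h he ih =>
    cases he with
    | ins u v a => exact ih.edit_ins u v a rfl
    | del u v a => exact ih.edit_del u v a rfl
    | sub u v a b => exact ih.edit_sub u v a b rfl

theorem Al.mono {k m : ℕ} {x y : List α} (h : Al k x y) (hkm : k ≤ m) : Al m x y := by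
  induction hkm with
  | refl => exact h
  | step _ ih => exact Al.weak ih

/-- Any two words are within finite edit distance. -/
theorem reach_nil (x : List α) : ∃ k, Reach k x ([] : List α) := by
  have key : ∀ (y z : List α) (k : ℕ), Reach k z y → ∃ k', Reach k' z ([] : List α) := by
    intro y
    induction y with
    | nil => intro z k h; exact ⟨k, h⟩
    | cons a y ih =>
      intro z k h
      exact ih z (k + 1) (Reach.step h (Edit.del [] y a))
  exact key x x 0 (Reach.refl x)

theorem reach_append (x : List α) : ∀ (y z : List α) (k : ℕ), Reach k z x →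
    ∃ k', Reach k' z (x ++ y) := by
  intro y
  induction y using List.reverseRecOn with
  | nil => intro z k h; exact ⟨k, by simpa using h⟩
  | append_singleton y a ih =>
    intro z k h
    obtain ⟨k', hk'⟩ := ih z k h
    refine ⟨k' + 1, Reach.step hk' ?_⟩
    have := Edit.ins (x ++ y) [] a
    simpa using this

theorem exists_reach (x y : List α) : ∃ k, Reach k x y := by
  obtain ⟨k, hk⟩ := reach_nil x
  obtain ⟨k', hk'⟩ := reach_append [] y x k hk
  exact ⟨k', by simpa using hk'⟩

theorem al_of_ED {x y : List α} {m : ℕ} (h : ED x y ≤ m) : Al m x y := by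
  have h1 : Reach (ED x y) x y := Nat.sInf_mem (s := {k | Reach k x y}) (exists_reach x y)
  exact (al_of_reach h1).mono h

theorem cover_card (T A1 A2 A3 A4 A5 : Finset (List Bool)) (a : Bool)
    (h : ∀ y ∈ T, y ∈ A1.image (List.cons a) ∪
      ((A2.image (List.cons true) ∪ A2.image (List.cons false)) ∪
      ((A3.image (List.cons true) ∪ A3.image (List.cons false)) ∪ (A4 ∪ A5)))) :
    (T.card : ℝ) ≤ A1.card + (2 * A2.card + (2 * A3.card + (A4.card + A5.card))) := by
  have h0 : T.card ≤ A1.card + ((A2.card + A2.card) + ((A3.card + A3.card) +
      (A4.card + A5.card))) := by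
    refine (card_le_card h).trans ?_
    refine (card_union_le _ _).trans (add_le_add card_image_le ?_)
    refine (card_union_le _ _).trans (add_le_add ?_ ?_)
    · exact (card_union_le _ _).trans (add_le_add card_image_le card_image_le)
    refine (card_union_le _ _).trans (add_le_add ?_ ?_)
    · exact (card_union_le _ _).trans (add_le_add card_image_le card_image_le)
    exact card_union_le _ _
  have h1 : (T.card : ℝ) ≤ A1.card + ((A2.card + A2.card) + ((A3.card + A3.card) +
      (A4.card + A5.card))) := by exact_mod_cast h0
  linarith

theorem mem_two {A : Finset (List Bool)} {y : List Bool} (hy : y ∈ A) (b : Bool) :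
    b :: y ∈ A.image (List.cons true) ∪ A.image (List.cons false) := by
  cases b
  · exact mem_union_right _ (mem_image_of_mem _ hy)
  · exact mem_union_left _ (mem_image_of_mem _ hy)

/-- The count of words at bounded alignment cost. -/
theorem count (n : ℕ) : ∀ (m : ℕ) (x : List Bool), x.length + m ≤ n → ∀ (q : ℕ)
    (T : Finset (List Bool)), (∀ y ∈ T, y.length = q ∧ Al m x y) →
    (T.card : ℝ) ≤ 16 ^ m * (3 / 2) ^ q := by
  induction n with
  | zero =>
    intro m x hn q T hT
    obtain rfl : m = 0 := by omega
    obtain rfl : x = [] := List.length_eq_zero_iff.1 (by omega)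
    have h1 : T ⊆ {[]} := by
      intro y hy
      have := (hT y hy).2
      cases this
      exact mem_singleton_self _
    have h2 : T.card ≤ 1 := by
      have := card_le_card h1
      simpa using this
    have h4 : (T.card : ℝ) ≤ 1 := by exact_mod_cast h2
    have h3 : (1 : ℝ) ≤ (3 / 2) ^ q := one_le_pow₀ (by norm_num)
    simpa using h4.trans h3
  | succ n IH =>
  intro m x hn q T hT
  cases q with
  | zero =>
    have h1 : T ⊆ {[]} := by
      intro y hy
      rw [mem_singleton]
      exact List.length_eq_zero_iff.1 (hT y hy).1
    have h2 : T.card ≤ 1 := by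
      have := card_le_card h1
      simpa using this
    have h3 : (1 : ℝ) ≤ 16 ^ m := one_le_pow₀ (by norm_num)
    have h4 : (T.card : ℝ) ≤ 1 := by exact_mod_cast h2
    simpa using h4.trans h3
  | succ q =>
    have hpow : (0 : ℝ) < (3 / 2) ^ q := by positivity
    classical
    set Tt : Finset (List Bool) := T.image List.tail with hTt
    have htail : ∀ b y', b :: y' ∈ T → y' ∈ Tt ∧ y'.length = q := by
      intro b y' hy
      have hl := (hT _ hy).1
      refine ⟨mem_image.2 ⟨_, hy, rfl⟩, ?_⟩
      simpa using hl
    cases m with
    | zero =>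
      cases x with
      | nil =>
        have h1 : T = ∅ := by
          rw [eq_empty_iff_forall_notMem]
          intro y hy
          have := hT y hy
          cases this.2
          simp at this
        rw [h1]
        simp only [card_empty, Nat.cast_zero]
        positivity
      | cons a x =>
        set A1 := Tt.filter (fun y => y.length = q ∧ Al 0 x y) with hA1
        have e1 := IH 0 x (by simp at hn; omega) q A1 (fun y hy => (mem_filter.1 hy).2)
        have e := cover_card T A1 ∅ ∅ ∅ ∅ a (by
          intro y hy
          obtain ⟨h1, h2⟩ := hT y hy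
          cases h2 with
          | cons _ h =>
            obtain ⟨h3, h4⟩ := htail _ _ hy
            exact mem_union_left _ (mem_image_of_mem _ (mem_filter.2 ⟨h3, h4, h⟩)))
        simp only [card_empty, Nat.cast_zero, mul_zero, add_zero, pow_zero, one_mul] at e e1 ⊢
        rw [pow_succ]
        linarith
    | succ m =>
      have h16 : (0 : ℝ) < 16 ^ m := by positivity
      have hU : (0 : ℝ) < 16 ^ m * (3 / 2) ^ q := by positivity
      set A3 := Tt.filter (fun y => y.length = q ∧ Al m x y) with hA3
      set A5 := T.filter (fun y => y.length = q + 1 ∧ Al m x y) with hA5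
      have e3 := IH m x (by omega) q A3 (fun y hy => (mem_filter.1 hy).2)
      have e5 := IH m x (by omega) (q + 1) A5 (fun y hy => (mem_filter.1 hy).2)
      cases x with
      | nil =>
        have e := cover_card T ∅ ∅ A3 ∅ A5 true (by
          intro y hy
          obtain ⟨h1, h2⟩ := hT y hy
          cases h2 with
          | ins b h =>
            obtain ⟨h3, h4⟩ := htail _ _ hy
            exact mem_union_right _ (mem_union_right _ (mem_union_left _
              (mem_two (mem_filter.2 ⟨h3, h4, h⟩) b)))
          | weak h =>
            exact mem_union_right _ (mem_union_right _ (mem_union_right _ (mem_union_right _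
              (mem_filter.2 ⟨hy, h1, h⟩)))))
        simp only [card_empty, Nat.cast_zero, mul_zero, add_zero, zero_add] at e
        have g1 : (16 : ℝ) ^ (m + 1) * (3 / 2) ^ (q + 1) = 24 * (16 ^ m * (3 / 2) ^ q) := by
          rw [pow_succ, pow_succ]; ring
        have g2 : (16 : ℝ) ^ m * (3 / 2) ^ (q + 1) = 3 / 2 * (16 ^ m * (3 / 2) ^ q) := by
          rw [pow_succ]; ring
        rw [g1]
        rw [g2] at e5
        linarith
      | cons a x =>
        set A1 := Tt.filter (fun y => y.length = q ∧ Al (m + 1) x y) with hA1
        set A2 := Tt.filter (fun y => y.length = q ∧ Al m x y) with hA2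
        set A4 := T.filter (fun y => y.length = q + 1 ∧ Al m x y) with hA4
        have e1 := IH (m + 1) x (by simp at hn; omega) q A1 (fun y hy => (mem_filter.1 hy).2)
        have e2 := IH m x (by simp at hn; omega) q A2 (fun y hy => (mem_filter.1 hy).2)
        have e4 := IH m x (by simp at hn; omega) (q + 1) A4 (fun y hy => (mem_filter.1 hy).2)
        have e := cover_card T A1 A2 A3 A4 A5 a (by
          intro y hy
          obtain ⟨h1, h2⟩ := hT y hy
          cases h2 with
          | cons _ h =>
            obtain ⟨h3, h4⟩ := htail _ _ hy
            exact mem_union_left _ (mem_image_of_mem _ (mem_filter.2 ⟨h3, h4, h⟩))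
          | sub _ b h =>
            obtain ⟨h3, h4⟩ := htail _ _ hy
            exact mem_union_right _ (mem_union_left _ (mem_two (mem_filter.2 ⟨h3, h4, h⟩) b))
          | ins b h =>
            obtain ⟨h3, h4⟩ := htail _ _ hy
            exact mem_union_right _ (mem_union_right _ (mem_union_left _
              (mem_two (mem_filter.2 ⟨h3, h4, h⟩) b)))
          | del _ h =>
            exact mem_union_right _ (mem_union_right _ (mem_union_right _ (mem_union_left _
              (mem_filter.2 ⟨hy, h1, h⟩))))
          | weak h =>
            exact mem_union_right _ (mem_union_right _ (mem_union_right _ (mem_union_right _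
              (mem_filter.2 ⟨hy, h1, h⟩)))))
        have g0 : (16 : ℝ) ^ (m + 1) * (3 / 2) ^ q = 16 * (16 ^ m * (3 / 2) ^ q) := by
          rw [pow_succ]; ring
        have g1 : (16 : ℝ) ^ (m + 1) * (3 / 2) ^ (q + 1) = 24 * (16 ^ m * (3 / 2) ^ q) := by
          rw [pow_succ, pow_succ]; ring
        have g2 : (16 : ℝ) ^ m * (3 / 2) ^ (q + 1) = 3 / 2 * (16 ^ m * (3 / 2) ^ q) := by
          rw [pow_succ]; ring
        rw [g1]
        rw [g0] at e1
        rw [g2] at e4 e5
        linarith

end Ball

/- [BALL] number of words close to a given word -/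
theorem ball_card (q m : ℕ) (P : List Bool) (hP : P.length = q) :
    (((Finset.univ : Finset (Fin q → Bool)).filter (fun Q => ED P (word Q) ≤ m)).card : ℝ)
      ≤ 2 * 16 ^ m * (3 / 2) ^ q := by
  classical
  set S := (Finset.univ : Finset (Fin q → Bool)).filter (fun Q => ED P (word Q) ≤ m) with hS
  have hinj : Function.Injective (word : (Fin q → Bool) → List Bool) := List.ofFn_injective
  have h1 : S.card = (S.image word).card := (card_image_of_injective _ hinj).symm
  have h2 := Ball.count _ m P le_rfl q (S.image word) (by
    intro y hy
    obtain ⟨Q, hQ, rfl⟩ := mem_image.1 hy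
    exact ⟨by simp [word], Ball.al_of_ED (mem_filter.1 hQ).2⟩)
  rw [h1]
  have h3 : (0 : ℝ) ≤ 16 ^ m * (3 / 2) ^ q := by positivity
  linarith

end Vale.Agent.P238
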