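import Vale.Agent.P238.Defs
import Vale.Agent.P063.Basic

/-!
P238: averages over the cube, influences, variance, and the permutations of the positions
`Fin (2 ^ L)` used in the proof (swap of the two halves of a dyadic block, rotation of a dyadic
block).
-/

namespace Vale.Agent.P238

open Finset

section cube

variable {ι : Type*} [Fintype ι] [DecidableEq ι]

/-- uniform average over the cube -/
noncomputable def av (F : (ι → Bool) → ℝ) : ℝ := (∑ x, F x) / 2 ^ Fintype.card ι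

/-- flip the `i`-th bit -/
def flip (i : ι) (x : ι → Bool) : ι → Bool := Function.update x i (!x i)

/-- influence -/
noncomputable def inf (g : (ι → Bool) → ℝ) (i : ι) : ℝ := av (fun x => |g x - g (flip i x)|)

/-- variance -/
noncomputable def vr (g : (ι → Bool) → ℝ) : ℝ := av (fun x => g x ^ 2) - (av g) ^ 2

/-- Fourier coefficients on the uniform cube -/
noncomputable def fo (f : (ι → Bool) → ℝ) (S : Finset ι) : ℝ := P063.fc (1 / 2) f S

end cube

/-- swap of the two halves of the `j`-th dyadic block of length `2 ^ (a+1)` (on indices) -/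
def swpN (a j i : ℕ) : ℕ :=
  if i / 2 ^ (a + 1) = j then (if i % 2 ^ (a + 1) < 2 ^ a then i + 2 ^ a else i - 2 ^ a) else i

/-- rotation by `s` of the `j`-th dyadic block of length `2 ^ c` (on indices) -/
def rotN (c j s i : ℕ) : ℕ :=
  if i / 2 ^ c = j then j * 2 ^ c + (i % 2 ^ c + s) % 2 ^ c else i

lemma rotN_div (c j s i : ℕ) : rotN c j s i / 2 ^ c = i / 2 ^ c := by
  unfold rotN
  have hp : 0 < 2 ^ c := by positivity
  split_ifs with h
  · rw [mul_comm, Nat.mul_add_div hp, Nat.div_eq_of_lt (Nat.mod_lt _ hp), h, add_zero]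
  · rfl

lemma rotN_rotN (c j s t i : ℕ) : rotN c j s (rotN c j t i) = rotN c j (t + s) i := by
  have hp : 0 < 2 ^ c := by positivity
  have h1 := rotN_div c j t i
  by_cases h : i / 2 ^ c = j
  · have h2 : rotN c j t i = j * 2 ^ c + (i % 2 ^ c + t) % 2 ^ c := by simp [rotN, h]
    have h3 : rotN c j t i % 2 ^ c = (i % 2 ^ c + t) % 2 ^ c := by
      rw [h2, mul_comm, Nat.mul_add_mod, Nat.mod_mod]
    have h4 : rotN c j s (rotN c j t i) = j * 2 ^ c + (rotN c j t i % 2 ^ c + s) % 2 ^ c := by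
      rw [rotN, if_pos (h1.trans h)]
    rw [h4, h3, rotN, if_pos h, Nat.mod_add_mod, add_assoc]
  · have h2 : rotN c j t i = i := by simp [rotN, h]
    rw [h2]
    simp [rotN, h]

lemma rotN_zero (c j s i : ℕ) (hs : s % 2 ^ c = 0) : rotN c j s i = i := by
  unfold rotN
  split_ifs with h
  · rw [Nat.add_mod, hs, add_zero, Nat.mod_mod, Nat.mod_mod, ← h, Nat.div_add_mod' i (2 ^ c)]
  · rfl

lemma lt_of_div_lt {L c i : ℕ} (hc : c ≤ L) (h : i / 2 ^ c < 2 ^ (L - c)) : i < 2 ^ L := by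
  have h1 : 2 ^ L = 2 ^ (L - c) * 2 ^ c := by rw [← pow_add, Nat.sub_add_cancel hc]
  rw [h1]
  exact (Nat.div_lt_iff_lt_mul (by positivity)).1 h

lemma div_lt_of_lt {L c i : ℕ} (hc : c ≤ L) (h : i < 2 ^ L) : i / 2 ^ c < 2 ^ (L - c) := by
  have h1 : 2 ^ L = 2 ^ (L - c) * 2 ^ c := by rw [← pow_add, Nat.sub_add_cancel hc]
  rw [h1] at h
  exact (Nat.div_lt_iff_lt_mul (by positivity)).2 h

lemma rotN_lt {L c i : ℕ} (j s : ℕ) (hc : c ≤ L) (h : i < 2 ^ L) : rotN c j s i < 2 ^ L :=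
  lt_of_div_lt hc (by rw [rotN_div]; exact div_lt_of_lt hc h)

lemma rot_inv (c s : ℕ) : (s + (2 ^ c - s % 2 ^ c)) % 2 ^ c = 0 := by
  have hp : 0 < 2 ^ c := by positivity
  have h1 : s % 2 ^ c < 2 ^ c := Nat.mod_lt _ hp
  have h2 : s = 2 ^ c * (s / 2 ^ c) + s % 2 ^ c := (Nat.div_add_mod s (2 ^ c)).symm
  have h3 : s + (2 ^ c - s % 2 ^ c) = 2 ^ c * (s / 2 ^ c + 1) := by
    rw [mul_add, mul_one]; omega
  rw [h3, Nat.mul_mod_right]

/-- rotation by `s` of the `j`-th dyadic block of length `2 ^ c` (identity if `L < c`) -/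
def rot (L c j s : ℕ) : Equiv.Perm (Fin (2 ^ L)) :=
  if hc : c ≤ L then
    { toFun := fun i => ⟨rotN c j s i.1, rotN_lt j s hc i.2⟩
      invFun := fun i => ⟨rotN c j (2 ^ c - s % 2 ^ c) i.1, rotN_lt j _ hc i.2⟩
      left_inv := fun i => by
        apply Fin.ext
        simp only
        rw [rotN_rotN]
        exact rotN_zero _ _ _ _ (rot_inv c s)
      right_inv := fun i => by
        apply Fin.ext
        simp only
        rw [rotN_rotN]
        exact rotN_zero _ _ _ _ (by rw [add_comm]; exact rot_inv c s) }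
  else 1

lemma rot_val {L c : ℕ} (j s : ℕ) (hc : c ≤ L) (i : Fin (2 ^ L)) :
    (rot L c j s i).1 = rotN c j s i.1 := by
  unfold rot
  rw [dif_pos hc]
  rfl

lemma swpN_eq (a j i : ℕ) : swpN a j i = rotN (a + 1) j (2 ^ a) i := by
  unfold swpN rotN
  split_ifs with h h2
  · have hp : 0 < 2 ^ a := by positivity
    have h3 : i % 2 ^ (a + 1) + 2 ^ a < 2 ^ (a + 1) := by rw [pow_succ] at *; omega
    rw [Nat.mod_eq_of_lt h3]
    have h4 := Nat.div_add_mod' i (2 ^ (a + 1))
    rw [h] at h4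
    omega
  · have hp : 0 < 2 ^ a := by positivity
    have h5 : i % 2 ^ (a + 1) < 2 ^ (a + 1) := Nat.mod_lt _ (by positivity)
    have h3 : (i % 2 ^ (a + 1) + 2 ^ a) % 2 ^ (a + 1) = i % 2 ^ (a + 1) - 2 ^ a := by
      rw [pow_succ] at *
      have e : i % (2 ^ a * 2) + 2 ^ a = (i % (2 ^ a * 2) - 2 ^ a) + 2 ^ a * 2 := by omega
      rw [e, Nat.add_mod_right, Nat.mod_eq_of_lt (by omega)]
    rw [h3]
    have h4 := Nat.div_add_mod' i (2 ^ (a + 1))
    rw [h] at h4
    omega
  · rfl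

/-- swap of the two halves of the `j`-th dyadic block of length `2 ^ (a+1)`; it is the rotation of
that block by `2 ^ a`. -/
def swp (L a j : ℕ) : Equiv.Perm (Fin (2 ^ L)) := rot L (a + 1) j (2 ^ a)

lemma swp_val {L a : ℕ} (j : ℕ) (ha : a + 1 ≤ L) (i : Fin (2 ^ L)) :
    (swp L a j i).1 = swpN a j i.1 := by
  unfold swp
  rw [rot_val j (2 ^ a) ha i, swpN_eq]

/-- number of dyadic blocks of length `2 ^ a` hit by `S` -/
def Nn {L : ℕ} (a : ℕ) (S : Finset (Fin (2 ^ L))) : ℕ :=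
  (S.image (fun i => i.1 / 2 ^ a)).card

end Vale.Agent.P238
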