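import Vale.Agent.P238.Base

/-!
P238 [BLK]: replace the content of a dyadic block; conditional variance = Fourier weight.
-/

namespace Vale.Agent.P238

open Finset

/-- the word `y` with the content of the `j`-th block of length `2 ^ a` replaced by `z` -/
def glue (L a j : ℕ) (y : Fin (2 ^ L) → Bool) (z : Fin (2 ^ a) → Bool) : Fin (2 ^ L) → Bool :=
  fun i => if i.1 / 2 ^ a = j then z ⟨i.1 % 2 ^ a, Nat.mod_lt _ (by positivity)⟩ else y i

namespace Blk

section gen

variable {ι : Type*} [Fintype ι] [DecidableEq ι]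

lemma av_eq_EE (F : (ι → Bool) → ℝ) : av F = P063.EE (1 / 2) F := by
  unfold av P063.EE
  rw [Finset.sum_div]
  refine Finset.sum_congr rfl (fun x _ => ?_)
  have h : ∀ i, P063.wt (1 / 2 : ℝ) (x i) = 1 / 2 := by
    intro i
    unfold P063.wt
    split_ifs <;> norm_num
  simp_rw [h]
  rw [Finset.prod_const, Finset.card_univ, one_div, inv_pow, div_eq_mul_inv, mul_comm]

lemma av_add (F G : (ι → Bool) → ℝ) : av (fun x => F x + G x) = av F + av G := by
  rw [av_eq_EE, av_eq_EE, av_eq_EE, P063.EE_add]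

lemma av_sub (F G : (ι → Bool) → ℝ) : av (fun x => F x - G x) = av F - av G := by
  rw [av_eq_EE, av_eq_EE, av_eq_EE, P063.EE_sub]

lemma av_mul_left (c : ℝ) (F : (ι → Bool) → ℝ) : av (fun x => c * F x) = c * av F := by
  rw [av_eq_EE, av_eq_EE, P063.EE_mul_left]

lemma av_sum {α : Type*} (s : Finset α) (F : α → (ι → Bool) → ℝ) :
    av (fun x => ∑ a ∈ s, F a x) = ∑ a ∈ s, av (F a) := by
  rw [av_eq_EE, P063.EE_sum]
  exact Finset.sum_congr rfl (fun a _ => (av_eq_EE (F a)).symm)

lemma av_mono {F G : (ι → Bool) → ℝ} (h : ∀ x, F x ≤ G x) : av F ≤ av G := by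
  rw [av_eq_EE, av_eq_EE]
  exact P063.EE_mono (by norm_num) (by norm_num) h

lemma parseval (f : (ι → Bool) → ℝ) : ∑ S : Finset ι, fo f S ^ 2 = av (fun x => f x ^ 2) := by
  rw [av_eq_EE]
  exact P063.parseval (by norm_num) (by norm_num) f

lemma parseval_syn (a : Finset ι → ℝ) :
    av (fun x => P063.syn (1 / 2) a x ^ 2) = ∑ S : Finset ι, a S ^ 2 := by
  rw [av_eq_EE]
  exact P063.parseval_syn (by norm_num) (by norm_num) a

lemma inversion (f : (ι → Bool) → ℝ) (x : ι → Bool) :
    f x = ∑ S : Finset ι, fo f S * P063.chi (1 / 2) S x :=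
  P063.inversion (by norm_num) (by norm_num) f x

lemma ph_av : (1 / 2 : ℝ) * P063.ph (1 / 2) true + (1 - 1 / 2) * P063.ph (1 / 2) false = 0 :=
  P063.ph_mean (by norm_num) (by norm_num)

end gen

/-- the `k`-th position of the `j`-th block -/
def emb {L a j : ℕ} (ha : a ≤ L) (hj : j < 2 ^ (L - a)) (k : Fin (2 ^ a)) : Fin (2 ^ L) :=
  ⟨j * 2 ^ a + k.1, lt_of_div_lt ha (by
    rw [mul_comm, Nat.mul_add_div (by positivity), Nat.div_eq_of_lt k.2, add_zero]
    exact hj)⟩

lemma emb_div {L a j : ℕ} (ha : a ≤ L) (hj : j < 2 ^ (L - a)) (k : Fin (2 ^ a)) :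
    (emb ha hj k).1 / 2 ^ a = j := by
  unfold emb
  simp only
  rw [mul_comm, Nat.mul_add_div (by positivity), Nat.div_eq_of_lt k.2, add_zero]

lemma emb_mod {L a j : ℕ} (ha : a ≤ L) (hj : j < 2 ^ (L - a)) (k : Fin (2 ^ a)) :
    (emb ha hj k).1 % 2 ^ a = k.1 := by
  unfold emb
  simp only
  rw [mul_comm, Nat.mul_add_mod, Nat.mod_eq_of_lt k.2]

lemma emb_of {L a j : ℕ} (ha : a ≤ L) (hj : j < 2 ^ (L - a)) (i : Fin (2 ^ L))
    (h : i.1 / 2 ^ a = j) : emb ha hj ⟨i.1 % 2 ^ a, Nat.mod_lt _ (by positivity)⟩ = i := by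
  apply Fin.ext
  unfold emb
  simp only
  rw [← h, Nat.div_add_mod']

lemma emb_inj {L a j : ℕ} (ha : a ≤ L) (hj : j < 2 ^ (L - a)) :
    Function.Injective (emb (L := L) ha hj) := by
  intro k k' h
  apply Fin.ext
  rw [← emb_mod ha hj k, ← emb_mod ha hj k', h]

lemma glue_emb {L a j : ℕ} (ha : a ≤ L) (hj : j < 2 ^ (L - a)) (y : Fin (2 ^ L) → Bool)
    (z : Fin (2 ^ a) → Bool) (k : Fin (2 ^ a)) : glue L a j y z (emb ha hj k) = z k := by
  unfold glue
  rw [if_pos (emb_div ha hj k)]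
  congr 1
  apply Fin.ext
  exact emb_mod ha hj k

lemma glue_off {L a j : ℕ} (y : Fin (2 ^ L) → Bool) (z : Fin (2 ^ a) → Bool) (i : Fin (2 ^ L))
    (h : i.1 / 2 ^ a ≠ j) : glue L a j y z i = y i := by
  unfold glue
  rw [if_neg h]

lemma glue_glue {L a j : ℕ} (y : Fin (2 ^ L) → Bool) (z w : Fin (2 ^ a) → Bool) :
    glue L a j (glue L a j y z) w = glue L a j y w := by
  funext i
  unfold glue
  split_ifs <;> rfl

lemma glue_self {L a j : ℕ} (ha : a ≤ L) (hj : j < 2 ^ (L - a)) (y : Fin (2 ^ L) → Bool) :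
    glue L a j y (fun k => y (emb ha hj k)) = y := by
  funext i
  unfold glue
  split_ifs with h
  · show y (emb ha hj _) = y i
    rw [emb_of ha hj i h]
  · rfl

end Blk

open Blk

theorem av_glue (L a j : ℕ) (ha : a ≤ L) (hj : j < 2 ^ (L - a)) (F : (Fin (2 ^ L) → Bool) → ℝ) :
    av (fun y => av (fun z => F (glue L a j y z))) = av F := by
  unfold av
  have h1 : ∑ y : Fin (2 ^ L) → Bool, ∑ z : Fin (2 ^ a) → Bool, F (glue L a j y z)
      = 2 ^ Fintype.card (Fin (2 ^ a)) * ∑ x : Fin (2 ^ L) → Bool, F x := by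
    rw [← Finset.sum_product' Finset.univ Finset.univ (fun y z => F (glue L a j y z))]
    rw [Finset.univ_product_univ]
    let Φ : (Fin (2 ^ L) → Bool) × (Fin (2 ^ a) → Bool) → (Fin (2 ^ L) → Bool) × (Fin (2 ^ a) → Bool) :=
      fun p => (glue L a j p.1 p.2, fun k => p.1 (emb ha hj k))
    have hinv : Function.Involutive Φ := by
      rintro ⟨y, z⟩
      simp only [Φ, Prod.mk.injEq]
      refine ⟨?_, ?_⟩
      · rw [glue_glue, glue_self]
      · funext k
        rw [glue_emb]
    have h2 : ∑ p : (Fin (2 ^ L) → Bool) × (Fin (2 ^ a) → Bool), F (glue L a j p.1 p.2)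
        = ∑ p : (Fin (2 ^ L) → Bool) × (Fin (2 ^ a) → Bool), F p.1 :=
      Fintype.sum_equiv hinv.toPerm _ _ (fun p => rfl)
    rw [h2, Fintype.sum_prod_type]
    simp only [Finset.sum_const, Finset.card_univ, nsmul_eq_mul]
    rw [Finset.mul_sum]
    refine Finset.sum_congr rfl (fun x _ => ?_)
    congr 1
    rw [Fintype.card_fun, Fintype.card_bool]
    push_cast
    ring
  rw [← Finset.sum_div, h1]
  have hp : (2 : ℝ) ^ Fintype.card (Fin (2 ^ a)) ≠ 0 := by positivity
  field_simp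

namespace Blk

/-- average of a character over a block -/
lemma av_chi (L a j : ℕ) (ha : a ≤ L) (hj : j < 2 ^ (L - a)) (S : Finset (Fin (2 ^ L)))
    (y : Fin (2 ^ L) → Bool) :
    av (fun z => P063.chi (1 / 2) S (glue L a j y z))
      = if j ∈ S.image (fun i => i.1 / 2 ^ a) then 0 else P063.chi (1 / 2) S y := by
  split_ifs with h
  · obtain ⟨i, hiS, hij⟩ := Finset.mem_image.1 h
    have h1 : ∀ z : Fin (2 ^ a) → Bool, P063.chi (1 / 2) S (glue L a j y z)
        = (∏ i : Fin (2 ^ L), if i.1 / 2 ^ a = j then (1 : ℝ) else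
            (if i ∈ S then P063.ph (1 / 2) (y i) else 1)) *
          ∏ k : Fin (2 ^ a), (if emb ha hj k ∈ S then P063.ph (1 / 2) (z k) else 1) := by
      intro z
      rw [P063.chi_eq_prod]
      have h2 : ∏ k : Fin (2 ^ a), (if emb ha hj k ∈ S then P063.ph (1 / 2) (z k) else 1)
          = ∏ i : Fin (2 ^ L), if i.1 / 2 ^ a = j then
              (if i ∈ S then P063.ph (1 / 2) (glue L a j y z i) else 1) else 1 := by
        conv_rhs => rw [← Finset.prod_filter]
        refine Finset.prod_bij (fun k _ => emb ha hj k) ?_ ?_ ?_ ?_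
        · intro k _
          exact Finset.mem_filter.2 ⟨Finset.mem_univ _, emb_div ha hj k⟩
        · intro k _ k' _ hk
          exact emb_inj ha hj hk
        · intro i hi
          exact ⟨_, Finset.mem_univ _, emb_of ha hj i (Finset.mem_filter.1 hi).2⟩
        · intro k _
          rw [glue_emb]
      rw [h2, ← Finset.prod_mul_distrib]
      refine Finset.prod_congr rfl (fun i _ => ?_)
      by_cases hi : i.1 / 2 ^ a = j
      · rw [if_pos hi, if_pos hi, one_mul]
      · rw [if_neg hi, if_neg hi, mul_one, glue_off y z i hi]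
    rw [show (fun z => P063.chi (1 / 2) S (glue L a j y z)) = _ from funext h1, av_mul_left,
      av_eq_EE, P063.EE_prod (1 / 2)
        (fun k b => if emb ha hj k ∈ S then P063.ph (1 / 2) b else 1)]
    have h3 : ∏ k : Fin (2 ^ a), (1 / 2 * (if emb ha hj k ∈ S then P063.ph (1 / 2) true else 1)
        + (1 - 1 / 2) * (if emb ha hj k ∈ S then P063.ph (1 / 2) false else 1)) = 0 := by
      refine Finset.prod_eq_zero
        (Finset.mem_univ (⟨i.1 % 2 ^ a, Nat.mod_lt _ (by positivity)⟩ : Fin (2 ^ a))) ?_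
      rw [emb_of ha hj i hij, if_pos hiS, if_pos hiS]
      exact ph_av
    rw [h3, mul_zero]
  · have h1 : ∀ z : Fin (2 ^ a) → Bool, P063.chi (1 / 2) S (glue L a j y z)
        = P063.chi (1 / 2) S y := by
      intro z
      unfold P063.chi
      refine Finset.prod_congr rfl (fun i hi => ?_)
      rw [glue_off y z i (fun h' => h (Finset.mem_image.2 ⟨i, hi, h'⟩))]
    rw [show (fun z => P063.chi (1 / 2) S (glue L a j y z)) = _ from funext h1, av_eq_EE,
      P063.EE_const]

end Blk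

theorem block_var (L a j : ℕ) (ha : a ≤ L) (hj : j < 2 ^ (L - a))
    (f : (Fin (2 ^ L) → Bool) → ℝ) :
    ∑ S : Finset (Fin (2 ^ L)), (if j ∈ S.image (fun i => i.1 / 2 ^ a) then fo f S ^ 2 else 0)
      = av (fun y => vr (fun z => f (glue L a j y z))) := by
  unfold vr
  rw [av_sub, av_glue L a j ha hj (fun x => f x ^ 2), ← parseval]
  have h1 : ∀ y, av (fun z => f (glue L a j y z)) = P063.syn (1 / 2)
      (fun S => if j ∈ S.image (fun i => i.1 / 2 ^ a) then 0 else fo f S) y := by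
    intro y
    have h2 : (fun z => f (glue L a j y z))
        = fun z => ∑ S : Finset (Fin (2 ^ L)), fo f S * P063.chi (1 / 2) S (glue L a j y z) := by
      funext z
      exact inversion f _
    rw [h2, av_sum]
    unfold P063.syn
    refine Finset.sum_congr rfl (fun S _ => ?_)
    rw [av_mul_left, av_chi L a j ha hj S y]
    by_cases h : j ∈ S.image (fun i => i.1 / 2 ^ a)
    · simp only [if_pos h, mul_zero, zero_mul]
    · simp only [if_neg h]
  simp_rw [h1]
  rw [parseval_syn, ← Finset.sum_sub_distrib]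
  refine Finset.sum_congr rfl (fun S _ => ?_)
  by_cases h : j ∈ S.image (fun i => i.1 / 2 ^ a)
  · simp only [if_pos h]
    ring
  · simp only [if_neg h]
    ring

end Vale.Agent.P238
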