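import Vale.Agent.P238.Base

/-!
P238: the key combinatorial inequality. A set `S` which meets the block `B'` of level `c` in a
single sub-block of level `a` is moved by the swap in the same way as by the rotation of `B'`
by one sub-block (or by its inverse); the other sets are paid for by `8 (Nn a - Nn c)`.
-/

namespace Vale.Agent.P238

open Finset

namespace CombAux

variable {L : ℕ}

/-- `S` meets the `j`-th block of length `2 ^ (a+1)` -/
def Hit (a j : ℕ) (S : Finset (Fin (2 ^ L))) : Prop := ∃ i ∈ S, i.1 / 2 ^ (a + 1) = j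

/-- `S` meets the `q`-th block of length `2 ^ a` -/
def Hq (a q : ℕ) (S : Finset (Fin (2 ^ L))) : Prop := ∃ i ∈ S, i.1 / 2 ^ a = q

/-- `S` meets at least two level-`a` blocks in the `k`-th block of length `2 ^ c` -/
def Mult (a c k : ℕ) (S : Finset (Fin (2 ^ L))) : Prop :=
  ∃ i ∈ S, ∃ i' ∈ S, i.1 / 2 ^ c = k ∧ i'.1 / 2 ^ c = k ∧ i.1 / 2 ^ a ≠ i'.1 / 2 ^ a

lemma div_succ (i a : ℕ) : i / 2 ^ (a + 1) = i / 2 ^ a / 2 := by
  rw [Nat.div_div_eq_div_mul, pow_succ]

lemma div_add (i a d : ℕ) : i / 2 ^ (a + d) = i / 2 ^ a / 2 ^ d := by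
  rw [Nat.div_div_eq_div_mul, pow_add]

/-- the swap on block indices -/
lemma swp_div {a : ℕ} (j : ℕ) (ha : a + 1 ≤ L) (i : Fin (2 ^ L)) :
    (swp L a j i).1 / 2 ^ a =
      if i.1 / 2 ^ a = 2 * j then 2 * j + 1 else if i.1 / 2 ^ a = 2 * j + 1 then 2 * j
        else i.1 / 2 ^ a := by
  rw [swp_val j ha]
  unfold swpN
  have hp : 0 < 2 ^ a := by positivity
  have h1 := div_succ i.1 a
  by_cases h : i.1 / 2 ^ (a + 1) = j
  · rw [if_pos h]
    have h2 : i.1 % 2 ^ (a + 1) = i.1 % 2 ^ a + 2 ^ a * (i.1 / 2 ^ a % 2) := by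
      rw [pow_succ, Nat.mod_mul]
    have h3 : i.1 % 2 ^ a < 2 ^ a := Nat.mod_lt _ hp
    have h4 : i.1 / 2 ^ a = 2 * j ∨ i.1 / 2 ^ a = 2 * j + 1 := by omega
    rcases h4 with h4 | h4
    · have h5 : i.1 / 2 ^ a % 2 = 0 := by omega
      rw [h5, mul_zero, add_zero] at h2
      rw [if_pos (by rw [h2]; exact h3), if_pos h4, Nat.add_div_right _ hp, h4]
    · have h5 : i.1 / 2 ^ a % 2 = 1 := by omega
      rw [h5, mul_one] at h2
      rw [if_neg (by rw [h2]; omega), if_neg (by omega), if_pos h4]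
      have h6 : i.1 = (i.1 - 2 ^ a) + 2 ^ a := by
        have : 2 ^ a ≤ i.1 := by
          have := Nat.div_mul_le_self i.1 (2 ^ a)
          rw [h4] at this
          nlinarith
        omega
      have h7 : i.1 / 2 ^ a = (i.1 - 2 ^ a) / 2 ^ a + 1 := by
        conv_lhs => rw [h6]
        rw [Nat.add_div_right _ hp]
      omega
  · rw [if_neg h, if_neg (by omega), if_neg (by omega)]

lemma swp_div_succ {a : ℕ} (j : ℕ) (ha : a + 1 ≤ L) (i : Fin (2 ^ L)) :
    (swp L a j i).1 / 2 ^ (a + 1) = i.1 / 2 ^ (a + 1) := by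
  unfold swp
  rw [rot_val j (2 ^ a) ha, rotN_div]

lemma swp_div_c {a c : ℕ} (j : ℕ) (ha : a + 1 ≤ L) (hac : a < c) (i : Fin (2 ^ L)) :
    (swp L a j i).1 / 2 ^ c = i.1 / 2 ^ c := by
  obtain ⟨d, rfl⟩ : ∃ d, c = (a + 1) + d := ⟨c - (a + 1), by omega⟩
  rw [div_add _ (a + 1) d, div_add _ (a + 1) d, swp_div_succ j ha]

lemma swp_swp {a : ℕ} (j : ℕ) (ha : a + 1 ≤ L) (i : Fin (2 ^ L)) :
    swp L a j (swp L a j i) = i := by
  apply Fin.ext
  unfold swp
  rw [rot_val j _ ha, rot_val j _ ha, rotN_rotN]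
  exact rotN_zero _ _ _ _ (by rw [← two_mul, ← pow_succ', Nat.mod_self])

lemma swp_div_ne {a : ℕ} (j : ℕ) (ha : a + 1 ≤ L) (i i' : Fin (2 ^ L)) :
    (swp L a j i).1 / 2 ^ a ≠ (swp L a j i').1 / 2 ^ a ↔ i.1 / 2 ^ a ≠ i'.1 / 2 ^ a := by
  rw [swp_div j ha, swp_div j ha]
  split_ifs <;> omega

lemma image_image_swp {a : ℕ} (j : ℕ) (ha : a + 1 ≤ L) (S : Finset (Fin (2 ^ L))) :
    (S.image (swp L a j)).image (swp L a j) = S := by
  rw [Finset.image_image]
  conv_rhs => rw [← Finset.image_id (s := S)]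
  refine Finset.image_congr (fun i _ => ?_)
  simp only [Function.comp, id]
  exact swp_swp j ha i

lemma hit_image {a : ℕ} (j j' : ℕ) (ha : a + 1 ≤ L) (S : Finset (Fin (2 ^ L))) :
    Hit a j' (S.image (swp L a j)) ↔ Hit a j' S := by
  unfold Hit
  simp only [Finset.mem_image, exists_exists_and_eq_and, swp_div_succ j ha]

lemma mult_image {a c k : ℕ} (j : ℕ) (ha : a + 1 ≤ L) (hac : a < c)
    (S : Finset (Fin (2 ^ L))) : Mult a c k (S.image (swp L a j)) ↔ Mult a c k S := by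
  unfold Mult
  simp only [Finset.mem_image, exists_exists_and_eq_and, swp_div_c j ha hac, swp_div_ne j ha]

lemma hq_image0 {a : ℕ} (j : ℕ) (ha : a + 1 ≤ L) (S : Finset (Fin (2 ^ L))) :
    Hq a (2 * j + 1) (S.image (swp L a j)) ↔ Hq a (2 * j) S := by
  unfold Hq
  simp only [Finset.mem_image, exists_exists_and_eq_and, swp_div j ha]
  constructor
  · rintro ⟨i, hi, h⟩
    refine ⟨i, hi, ?_⟩
    split_ifs at h <;> omega
  · rintro ⟨i, hi, h⟩
    exact ⟨i, hi, by rw [if_pos h]⟩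

lemma image_not_hit {a : ℕ} (j : ℕ) (ha : a + 1 ≤ L) (S : Finset (Fin (2 ^ L)))
    (h : ¬ Hit a j S) : S.image (swp L a j) = S := by
  conv_rhs => rw [← Finset.image_id (s := S)]
  refine Finset.image_congr (fun i hi => ?_)
  apply Fin.ext
  have h1 : i.1 / 2 ^ (a + 1) ≠ j := fun h2 => h ⟨i, hi, h2⟩
  simp only [id]
  rw [swp_val j ha, swpN, if_neg h1]

/-- a set which meets the big block only in the sub-block `2 j` is moved by the swap as by the
rotation -/
lemma image_eq_rot {a c : ℕ} (j : ℕ) (hac : a < c) (hc : c ≤ L) (S : Finset (Fin (2 ^ L)))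
    (h0 : Hq a (2 * j) S) (hm : ¬ Mult a c (j / 2 ^ (c - (a + 1))) S) :
    S.image (swp L a j) = S.image (rot L c (j / 2 ^ (c - (a + 1))) (2 ^ a)) := by
  refine Finset.image_congr (fun i hi => ?_)
  apply Fin.ext
  have ha : a + 1 ≤ L := by omega
  rw [swp_val j ha, rot_val _ _ hc]
  obtain ⟨d, hd⟩ : ∃ d, c = (a + 1) + d := ⟨c - (a + 1), by omega⟩
  have hcd : c - (a + 1) = d := by omega
  rw [hcd] at hm ⊢
  obtain ⟨i0, hi0, h0⟩ := h0
  have hi0c : i0.1 / 2 ^ c = j / 2 ^ d := by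
    rw [hd, div_add, div_succ, h0, Nat.mul_div_cancel_left _ (by norm_num : 0 < 2)]
  by_cases hk : i.1 / 2 ^ c = j / 2 ^ d
  · -- then `i` is in the sub-block `2 j`
    have hq : i.1 / 2 ^ a = 2 * j := by
      by_contra hne
      exact hm ⟨i, hi, i0, hi0, hk, hi0c, by rw [h0]; exact hne⟩
    have hj : i.1 / 2 ^ (a + 1) = j := by rw [div_succ, hq]; omega
    have hp : 0 < 2 ^ a := by positivity
    have h2 : i.1 % 2 ^ (a + 1) < 2 ^ a := by
      have : i.1 % 2 ^ (a + 1) = i.1 % 2 ^ a + 2 ^ a * (i.1 / 2 ^ a % 2) := by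
        rw [pow_succ, Nat.mod_mul]
      rw [this, hq]
      have h3 : i.1 % 2 ^ a < 2 ^ a := Nat.mod_lt _ hp
      have h4 : 2 * j % 2 = 0 := by omega
      rw [h4]; omega
    rw [swpN, if_pos hj, if_pos h2, rotN, if_pos hk]
    -- `i % 2^c + 2^a < 2^c`
    have h5 : i.1 % 2 ^ c = i.1 % 2 ^ (a + 1) + 2 ^ (a + 1) * (i.1 / 2 ^ (a + 1) % 2 ^ d) := by
      rw [hd, pow_add, Nat.mod_mul]
    have h6 : i.1 / 2 ^ (a + 1) % 2 ^ d < 2 ^ d := Nat.mod_lt _ (by positivity)
    have h7 : i.1 % 2 ^ c + 2 ^ a < 2 ^ c := by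
      rw [h5]
      have e1 : 2 ^ c = 2 ^ (a + 1) * 2 ^ d := by rw [hd, pow_add]
      have e2 : 2 ^ (a + 1) * (i.1 / 2 ^ (a + 1) % 2 ^ d) + 2 ^ (a + 1) ≤ 2 ^ (a + 1) * 2 ^ d := by
        rw [← Nat.mul_succ]
        exact Nat.mul_le_mul_left _ h6
      rw [e1]
      have e3 : 2 ^ (a + 1) = 2 ^ a * 2 := pow_succ _ _
      omega
    rw [Nat.mod_eq_of_lt h7]
    have h8 := Nat.div_add_mod' i.1 (2 ^ c)
    rw [hk] at h8
    omega
  · have hj : i.1 / 2 ^ (a + 1) ≠ j := by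
      intro h
      apply hk
      rw [hd, div_add, h]
    rw [swpN, if_neg hj, rotN, if_neg hk]

/-- counting of the pairs with several sub-blocks -/
lemma card_mult {a c : ℕ} (hac : a < c) (S : Finset (Fin (2 ^ L))) (J : Finset ℕ)
    (hJ : ∀ j ∈ J, Hit a j S ∧ Mult a c (j / 2 ^ (c - (a + 1))) S) :
    (J.card : ℝ) ≤ 2 * ((Nn a S : ℝ) - Nn c S) := by
  classical
  obtain ⟨d, hd⟩ : ∃ d, c = (a + 1) + d := ⟨c - (a + 1), by omega⟩
  have hcd : c - (a + 1) = d := by omega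
  rw [hcd] at hJ
  have hdiv : ∀ i : ℕ, i / 2 ^ a / 2 ^ (d + 1) = i / 2 ^ c := by
    intro i
    rw [Nat.div_div_eq_div_mul, ← pow_add, hd]
    congr 2
    omega
  set I : Finset ℕ := S.image (fun i => i.1 / 2 ^ a) with hI
  set Ic : Finset ℕ := S.image (fun i => i.1 / 2 ^ c) with hIc
  have hmap : ∀ q ∈ I, q / 2 ^ (d + 1) ∈ Ic := by
    intro q hq
    rw [hI, Finset.mem_image] at hq
    obtain ⟨i, hi, rfl⟩ := hq
    rw [hIc, Finset.mem_image]
    exact ⟨i, hi, (hdiv i.1).symm⟩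
  have hNa : (Nn a S : ℝ) = ∑ k ∈ Ic, ((I.filter (fun q => q / 2 ^ (d + 1) = k)).card : ℝ) := by
    unfold Nn
    rw [← hI, Finset.card_eq_sum_card_fiberwise hmap]
    push_cast; rfl
  have hNc : (Nn c S : ℝ) = ∑ k ∈ Ic, (1 : ℝ) := by
    unfold Nn
    rw [← hIc]; simp
  have hge1 : ∀ k ∈ Ic, 1 ≤ (I.filter (fun q => q / 2 ^ (d + 1) = k)).card := by
    intro k hk
    rw [hIc, Finset.mem_image] at hk
    obtain ⟨i, hi, rfl⟩ := hk
    apply Finset.card_pos.mpr
    exact ⟨i.1 / 2 ^ a, Finset.mem_filter.mpr ⟨Finset.mem_image_of_mem _ hi, hdiv i.1⟩⟩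
  set M : Finset ℕ := Ic.filter (fun k => Mult a c k S) with hM
  have hge2 : ∀ k ∈ M, 2 ≤ (I.filter (fun q => q / 2 ^ (d + 1) = k)).card := by
    intro k hk
    obtain ⟨_, i, hi, i', hi', h1, h2, h3⟩ := Finset.mem_filter.mp hk
    apply Finset.one_lt_card.mpr
    refine ⟨i.1 / 2 ^ a, Finset.mem_filter.mpr ⟨Finset.mem_image_of_mem _ hi, ?_⟩,
      i'.1 / 2 ^ a, Finset.mem_filter.mpr ⟨Finset.mem_image_of_mem _ hi', ?_⟩, h3⟩
    · rw [hdiv, h1]
    · rw [hdiv, h2]
  have hsub : J ⊆ M.biUnion (fun k => (I.filter (fun q => q / 2 ^ (d + 1) = k)).image (· / 2)) := by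
    intro j hj
    obtain ⟨⟨i, hi, hij⟩, hmu⟩ := hJ j hj
    rw [Finset.mem_biUnion]
    refine ⟨j / 2 ^ d, Finset.mem_filter.mpr ⟨?_, hmu⟩, ?_⟩
    · obtain ⟨i', hi', _, _, h1, _, _⟩ := hmu
      rw [hIc, Finset.mem_image]
      exact ⟨i', hi', h1⟩
    · rw [Finset.mem_image]
      refine ⟨i.1 / 2 ^ a, Finset.mem_filter.mpr ⟨Finset.mem_image_of_mem _ hi, ?_⟩, ?_⟩
      · rw [pow_succ', ← Nat.div_div_eq_div_mul, ← div_succ, hij]
      · rw [← div_succ, hij]
  have h1 : (J.card : ℝ) ≤ ∑ k ∈ M, ((I.filter (fun q => q / 2 ^ (d + 1) = k)).card : ℝ) := by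
    have := (Finset.card_le_card hsub).trans Finset.card_biUnion_le
    have h2 : ∑ k ∈ M, ((I.filter (fun q => q / 2 ^ (d + 1) = k)).image (· / 2)).card
        ≤ ∑ k ∈ M, (I.filter (fun q => q / 2 ^ (d + 1) = k)).card :=
      Finset.sum_le_sum (fun k _ => Finset.card_image_le)
    exact_mod_cast this.trans h2
  have h2 : ∑ k ∈ M, ((I.filter (fun q => q / 2 ^ (d + 1) = k)).card : ℝ)
      ≤ ∑ k ∈ M, 2 * (((I.filter (fun q => q / 2 ^ (d + 1) = k)).card : ℝ) - 1) := by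
    refine Finset.sum_le_sum (fun k hk => ?_)
    have : (2 : ℝ) ≤ (I.filter (fun q => q / 2 ^ (d + 1) = k)).card := by
      exact_mod_cast hge2 k hk
    linarith
  have h3 : ∑ k ∈ M, 2 * (((I.filter (fun q => q / 2 ^ (d + 1) = k)).card : ℝ) - 1)
      ≤ ∑ k ∈ Ic, 2 * (((I.filter (fun q => q / 2 ^ (d + 1) = k)).card : ℝ) - 1) := by
    refine Finset.sum_le_sum_of_subset_of_nonneg (Finset.filter_subset _ _) (fun k hk _ => ?_)
    have : (1 : ℝ) ≤ (I.filter (fun q => q / 2 ^ (d + 1) = k)).card := by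
      exact_mod_cast hge1 k hk
    linarith
  have h4 : ∑ k ∈ Ic, 2 * (((I.filter (fun q => q / 2 ^ (d + 1) = k)).card : ℝ) - 1)
      = 2 * ((Nn a S : ℝ) - Nn c S) := by
    rw [hNa, hNc, ← Finset.sum_sub_distrib, Finset.mul_sum]
  linarith

end CombAux

open CombAux in
theorem comb (L a c : ℕ) (hac : a < c) (hc : c ≤ L) (A : Finset (Fin (2 ^ L)) → ℝ) :
    ∑ j ∈ range (2 ^ (L - (a + 1))), ∑ S, (A S - A (S.image (swp L a j))) ^ 2
      ≤ 2 * ∑ k ∈ range (2 ^ (L - c)), ∑ S, (A S - A (S.image (rot L c k (2 ^ a)))) ^ 2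
        + 8 * ∑ S, A S ^ 2 * ((Nn a S : ℝ) - Nn c S) := by
  classical
  have ha : a + 1 ≤ L := by omega
  set d := c - (a + 1) with hd
  set g : ℕ → Finset (Fin (2 ^ L)) → ℝ := fun k S => (A S - A (S.image (rot L c k (2 ^ a)))) ^ 2
    with hg
  have hg0 : ∀ k S, 0 ≤ g k S := fun k S => sq_nonneg _
  -- the three classes
  have key : ∀ j ∈ range (2 ^ (L - (a + 1))), ∑ S, (A S - A (S.image (swp L a j))) ^ 2
      ≤ 2 * (∑ S, if Hq a (2 * j) S ∧ ¬ Mult a c (j / 2 ^ d) S then g (j / 2 ^ d) S else 0)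
        + 4 * ∑ S, if Hit a j S ∧ Mult a c (j / 2 ^ d) S then A S ^ 2 else 0 := by
    intro j _
    -- the involution
    let e : Finset (Fin (2 ^ L)) ≃ Finset (Fin (2 ^ L)) :=
      { toFun := fun S => S.image (swp L a j)
        invFun := fun S => S.image (swp L a j)
        left_inv := fun S => image_image_swp j ha S
        right_inv := fun S => image_image_swp j ha S }
    have he : ∀ S, e S = S.image (swp L a j) := fun S => rfl
    set T : Finset (Fin (2 ^ L)) → ℝ := fun S => (A S - A (S.image (swp L a j))) ^ 2 with hT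
    have hTe : ∀ S, T (e S) = T S := by
      intro S
      simp only [hT, he, image_image_swp j ha]
      ring
    have hpt : ∀ S, T S ≤
        (if Hq a (2 * j) S ∧ ¬ Mult a c (j / 2 ^ d) S then T S else 0)
        + (if Hq a (2 * j + 1) S ∧ ¬ Mult a c (j / 2 ^ d) S then T S else 0)
        + (if Hit a j S ∧ Mult a c (j / 2 ^ d) S then 2 * A S ^ 2 + 2 * A (e S) ^ 2 else 0) := by
      intro S
      have hT0 : 0 ≤ T S := sq_nonneg _
      have hp3 : 0 ≤ 2 * A S ^ 2 + 2 * A (e S) ^ 2 := by positivity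
      by_cases hh : Hit a j S
      · by_cases hmu : Mult a c (j / 2 ^ d) S
        · rw [if_neg (by tauto), if_neg (by tauto), if_pos ⟨hh, hmu⟩]
          simp only [hT, he]
          nlinarith [sq_nonneg (A S + A (S.image (swp L a j)))]
        · have hq : Hq a (2 * j) S ∨ Hq a (2 * j + 1) S := by
            obtain ⟨i, hi, hij⟩ := hh
            rw [div_succ] at hij
            have : i.1 / 2 ^ a = 2 * j ∨ i.1 / 2 ^ a = 2 * j + 1 := by omega
            rcases this with h | h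
            · exact Or.inl ⟨i, hi, h⟩
            · exact Or.inr ⟨i, hi, h⟩
          rcases hq with h | h
          · rw [if_pos ⟨h, hmu⟩]
            split_ifs <;> linarith
          · have : (0:ℝ) ≤ (if Hq a (2 * j) S ∧ ¬ Mult a c (j / 2 ^ d) S then T S else 0) := by
              split_ifs <;> linarith
            rw [if_pos (⟨h, hmu⟩ : Hq a (2 * j + 1) S ∧ _)]
            have h9 : (0:ℝ) ≤ (if Hit a j S ∧ Mult a c (j / 2 ^ d) S
              then 2 * A S ^ 2 + 2 * A (e S) ^ 2 else 0) := by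
              split_ifs <;> linarith
            linarith
      · have : T S = 0 := by
          simp only [hT]
          rw [image_not_hit j ha S hh]; ring
        rw [this]
        simp only [ite_self, zero_add]
        split_ifs <;> linarith
    have hsum := Finset.sum_le_sum (fun S (_ : S ∈ (Finset.univ : Finset (Finset (Fin (2 ^ L))))) => hpt S)
    rw [Finset.sum_add_distrib, Finset.sum_add_distrib] at hsum
    -- second class = first class
    have h2 : ∑ S, (if Hq a (2 * j + 1) S ∧ ¬ Mult a c (j / 2 ^ d) S then T S else 0)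
        = ∑ S, (if Hq a (2 * j) S ∧ ¬ Mult a c (j / 2 ^ d) S then T S else 0) := by
      rw [← Equiv.sum_comp e]
      refine Finset.sum_congr rfl (fun S _ => ?_)
      rw [hTe, he]
      simp only [hq_image0 j ha, mult_image j ha hac]
    have h1 : ∀ S, (if Hq a (2 * j) S ∧ ¬ Mult a c (j / 2 ^ d) S then T S else 0)
        = (if Hq a (2 * j) S ∧ ¬ Mult a c (j / 2 ^ d) S then g (j / 2 ^ d) S else 0) := by
      intro S
      split_ifs with h
      · simp only [hT, hg]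
        rw [image_eq_rot j hac hc S h.1 h.2]
      · rfl
    have h3 : ∑ S, (if Hit a j S ∧ Mult a c (j / 2 ^ d) S
          then 2 * A S ^ 2 + 2 * A (e S) ^ 2 else 0)
        = 4 * ∑ S, if Hit a j S ∧ Mult a c (j / 2 ^ d) S then A S ^ 2 else 0 := by
      have h4 : ∑ S, (if Hit a j S ∧ Mult a c (j / 2 ^ d) S then A (e S) ^ 2 else 0)
          = ∑ S, if Hit a j S ∧ Mult a c (j / 2 ^ d) S then A S ^ 2 else 0 := by
        rw [← Equiv.sum_comp e (fun S => if Hit a j S ∧ Mult a c (j / 2 ^ d) S then A S ^ 2 else 0)]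
        refine Finset.sum_congr rfl (fun S _ => ?_)
        rw [he]
        simp only [hit_image j j ha, mult_image j ha hac]
      have h5 : ∑ S, (if Hit a j S ∧ Mult a c (j / 2 ^ d) S
          then 2 * A S ^ 2 + 2 * A (e S) ^ 2 else 0)
          = 2 * (∑ S, if Hit a j S ∧ Mult a c (j / 2 ^ d) S then A S ^ 2 else 0)
          + 2 * (∑ S, if Hit a j S ∧ Mult a c (j / 2 ^ d) S then A (e S) ^ 2 else 0) := by
        rw [Finset.mul_sum, Finset.mul_sum, ← Finset.sum_add_distrib]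
        refine Finset.sum_congr rfl (fun S _ => ?_)
        split_ifs <;> ring
      rw [h5, h4]; ring
    rw [h2, h3] at hsum
    simp_rw [h1] at hsum
    calc ∑ S, (A S - A (S.image (swp L a j))) ^ 2 = ∑ S, T S := rfl
      _ ≤ _ := hsum
      _ = _ := by ring
  refine (Finset.sum_le_sum key).trans ?_
  rw [Finset.sum_add_distrib, ← Finset.mul_sum, ← Finset.mul_sum]
  have hA : ∑ j ∈ range (2 ^ (L - (a + 1))),
      (∑ S, if Hq a (2 * j) S ∧ ¬ Mult a c (j / 2 ^ d) S then g (j / 2 ^ d) S else 0)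
      ≤ ∑ k ∈ range (2 ^ (L - c)), ∑ S, g k S := by
    rw [Finset.sum_comm, Finset.sum_comm (s := range (2 ^ (L - c)))]
    refine Finset.sum_le_sum (fun S _ => ?_)
    rw [← Finset.sum_filter]
    have hinj : Set.InjOn (fun j => j / 2 ^ d)
        (((range (2 ^ (L - (a + 1)))).filter
          (fun j => Hq a (2 * j) S ∧ ¬ Mult a c (j / 2 ^ d) S) : Finset ℕ) : Set ℕ) := by
      intro j hj j' hj' hjj
      rw [Finset.mem_coe, Finset.mem_filter] at hj hj'
      obtain ⟨_, ⟨i, hi, hij⟩, hm⟩ := hj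
      obtain ⟨_, ⟨i', hi', hij'⟩, _⟩ := hj'
      by_contra hne
      apply hm
      have hcd : c = (a + 1) + d := by omega
      refine ⟨i, hi, i', hi', ?_, ?_, by omega⟩
      · rw [hcd, div_add, div_succ, hij, Nat.mul_div_cancel_left _ (by norm_num : 0 < 2)]
      · rw [hcd, div_add, div_succ, hij', Nat.mul_div_cancel_left _ (by norm_num : 0 < 2)]
        exact hjj.symm
    rw [← Finset.sum_image (f := fun k => g k S) hinj]
    refine Finset.sum_le_sum_of_subset_of_nonneg ?_ (fun k _ _ => hg0 k S)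
    intro k hk
    rw [Finset.mem_image] at hk
    obtain ⟨j, hj, rfl⟩ := hk
    rw [Finset.mem_filter, Finset.mem_range] at hj
    rw [Finset.mem_range]
    have e1 : 2 ^ (L - (a + 1)) = 2 ^ (L - c) * 2 ^ d := by
      rw [← pow_add]; congr 1; omega
    exact (Nat.div_lt_iff_lt_mul (by positivity)).2 (by rw [← e1]; exact hj.1)
  have hB : ∑ j ∈ range (2 ^ (L - (a + 1))),
      (∑ S, if Hit a j S ∧ Mult a c (j / 2 ^ d) S then A S ^ 2 else 0)
      ≤ 2 * ∑ S, A S ^ 2 * ((Nn a S : ℝ) - Nn c S) := by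
    rw [Finset.sum_comm, Finset.mul_sum]
    refine Finset.sum_le_sum (fun S _ => ?_)
    rw [← Finset.sum_filter, Finset.sum_const, nsmul_eq_mul]
    have := card_mult hac S ((range (2 ^ (L - (a + 1)))).filter
      (fun j => Hit a j S ∧ Mult a c (j / 2 ^ d) S)) (fun j hj => (Finset.mem_filter.mp hj).2)
    nlinarith [sq_nonneg (A S)]
  linarith

end Vale.Agent.P238
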