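import Vale.Agent.P238.Base

/-!
P238: from `0/1`-valued functions to `ℓ₁`-valued functions (co-area formula).
-/

namespace Vale.Agent.P238

open Finset MeasureTheory

lemma cut_fun_eq (a b θ : ℝ) :
    |(if θ < a then (1 : ℝ) else 0) - (if θ < b then 1 else 0)| =
      (Set.Ico (min a b) (max a b)).indicator (fun _ => (1 : ℝ)) θ := by
  unfold Set.indicator
  simp only [Set.mem_Ico, min_le_iff, lt_max_iff]
  by_cases h1 : θ < a <;> by_cases h2 : θ < b
  · have h3 : ¬ ((a ≤ θ ∨ b ≤ θ) ∧ (θ < a ∨ θ < b)) := by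
      rintro ⟨h | h, -⟩ <;> linarith
    rw [if_pos h1, if_pos h2, if_neg h3]; norm_num
  · have h3 : ((a ≤ θ ∨ b ≤ θ) ∧ (θ < a ∨ θ < b)) := ⟨Or.inr (not_lt.1 h2), Or.inl h1⟩
    rw [if_pos h1, if_neg h2, if_pos h3]; norm_num
  · have h3 : ((a ≤ θ ∨ b ≤ θ) ∧ (θ < a ∨ θ < b)) := ⟨Or.inl (not_lt.1 h1), Or.inr h2⟩
    rw [if_neg h1, if_pos h2, if_pos h3]; norm_num
  · have h3 : ¬ ((a ≤ θ ∨ b ≤ θ) ∧ (θ < a ∨ θ < b)) := by
      rintro ⟨-, h | h⟩
      · exact h1 h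
      · exact h2 h
    rw [if_neg h1, if_neg h2, if_neg h3]; norm_num

lemma cut_integrable (a b : ℝ) :
    Integrable (fun θ : ℝ => |(if θ < a then (1 : ℝ) else 0) - (if θ < b then 1 else 0)|) := by
  simp_rw [cut_fun_eq]
  refine (integrable_indicator_iff measurableSet_Ico).2 ?_
  exact integrableOn_const (by simp)

lemma cut_integral (a b : ℝ) :
    ∫ θ : ℝ, |(if θ < a then (1 : ℝ) else 0) - (if θ < b then 1 else 0)| = |a - b| := by
  simp_rw [cut_fun_eq]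
  rw [integral_indicator measurableSet_Ico]
  simp [max_sub_min_eq_abs, abs_sub_comm]

lemma cut_sum_integrable {X κ : Type*} [Fintype X] (s : Finset κ) (u : κ → ℝ) (m : κ → X → X)
    (φ : X → ℝ) : Integrable (fun θ : ℝ => ∑ i ∈ s, u i * ∑ x,
      |(if θ < φ x then (1 : ℝ) else 0) - (if θ < φ (m i x) then 1 else 0)|) := by
  refine integrable_finsetSum _ fun i _ => ?_
  exact (integrable_finsetSum _ fun x _ => cut_integrable _ _).const_mul _

lemma cut_sum_integral {X κ : Type*} [Fintype X] (s : Finset κ) (u : κ → ℝ) (m : κ → X → X)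
    (φ : X → ℝ) : ∫ θ : ℝ, ∑ i ∈ s, u i * ∑ x,
      |(if θ < φ x then (1 : ℝ) else 0) - (if θ < φ (m i x) then 1 else 0)| =
    ∑ i ∈ s, u i * ∑ x, |φ x - φ (m i x)| := by
  rw [integral_finsetSum _ fun i _ =>
    (integrable_finsetSum _ fun x _ => cut_integrable _ _).const_mul _]
  refine sum_congr rfl fun i _ => ?_
  rw [integral_const_mul, integral_finsetSum _ fun x _ => cut_integrable _ _]
  simp_rw [cut_integral]

/-- the inequality for real-valued functions -/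
lemma cut_real {X κ μ : Type*} [Fintype X] (s : Finset κ) (u : κ → ℝ) (m : κ → X → X)
    (t : Finset μ) (w : μ → ℝ) (n : μ → X → X)
    (h : ∀ g : X → ℝ, (∀ x, g x = 0 ∨ g x = 1) →
      ∑ i ∈ s, u i * ∑ x, |g x - g (m i x)| ≤ ∑ j ∈ t, w j * ∑ x, |g x - g (n j x)|)
    (φ : X → ℝ) :
    ∑ i ∈ s, u i * ∑ x, |φ x - φ (m i x)| ≤ ∑ j ∈ t, w j * ∑ x, |φ x - φ (n j x)| := by
  rw [← cut_sum_integral s u m φ, ← cut_sum_integral t w n φ]
  refine integral_mono (cut_sum_integrable s u m φ) (cut_sum_integrable t w n φ) fun θ => ?_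
  exact h (fun x => if θ < φ x then 1 else 0) (fun x => by
    by_cases hx : θ < φ x
    · right; simp [hx]
    · left; simp [hx])

/-- the `k`-th coordinate -/
noncomputable def co (f : ell1) (k : ℕ) : ℝ := (f : ∀ _ : ℕ, ℝ) k

lemma hasSum_norm_sub (f g : ell1) : HasSum (fun k : ℕ => |co f k - co g k|) ‖f - g‖ := by
  have h1 := lp.hasSum_norm (p := 1) (by simp) (f - g)
  simp only [ENNReal.toReal_one, Real.rpow_one] at h1
  exact h1

lemma hasSum_cut {X κ : Type*} [Fintype X] (s : Finset κ) (u : κ → ℝ) (m : κ → X → X)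
    (F : X → ell1) :
    HasSum (fun k : ℕ => ∑ i ∈ s, u i * ∑ x, |co (F x) k - co (F (m i x)) k|)
      (∑ i ∈ s, u i * ∑ x, ‖F x - F (m i x)‖) :=
  hasSum_sum fun _ _ => (hasSum_sum fun _ _ => hasSum_norm_sub _ _).mul_left _

theorem cut_to_l1 {X κ μ : Type*} [Fintype X] (s : Finset κ) (u : κ → ℝ) (m : κ → X → X)
    (t : Finset μ) (w : μ → ℝ) (n : μ → X → X)
    (h : ∀ g : X → ℝ, (∀ x, g x = 0 ∨ g x = 1) →
      ∑ i ∈ s, u i * ∑ x, |g x - g (m i x)| ≤ ∑ j ∈ t, w j * ∑ x, |g x - g (n j x)|)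
    (F : X → ell1) :
    ∑ i ∈ s, u i * ∑ x, ‖F x - F (m i x)‖ ≤ ∑ j ∈ t, w j * ∑ x, ‖F x - F (n j x)‖ :=
  hasSum_le (fun k => cut_real s u m t w n h fun x => co (F x) k)
    (hasSum_cut s u m F) (hasSum_cut t w n F)

end Vale.Agent.P238
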