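import Mathlib

/-!
Definitions for P238: edit distance, embeddings into `ℓ₁`, distortion.
-/

namespace Vale.Agent.P238

/-- One single-symbol operation (insertion, deletion or substitution) on words over `α`. -/
inductive Edit {α : Type*} : List α → List α → Prop
  | ins (u v : List α) (a : α) : Edit (u ++ v) (u ++ a :: v)
  | del (u v : List α) (a : α) : Edit (u ++ a :: v) (u ++ v)
  | sub (u v : List α) (a b : α) : Edit (u ++ a :: v) (u ++ b :: v)

/-- `Reach k x y`: some `k` successive single-symbol operations transform `x` into `y`. -/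
inductive Reach {α : Type*} : ℕ → List α → List α → Prop
  | refl (x : List α) : Reach 0 x x
  | step {k : ℕ} {x y z : List α} : Reach k x y → Edit y z → Reach (k + 1) x z

/-- The edit distance: the least number of single-symbol insertions, deletions and
substitutions transforming `x` into `y`. -/
noncomputable def ED {α : Type*} (x y : List α) : ℕ := sInf {k | Reach k x y}

/-- The real Banach space `ℓ₁` of absolutely summable sequences. -/
abbrev ell1 : Type := lp (fun _ : ℕ => ℝ) 1

/-- The distortion of a map `f : X → ℓ₁` from a finite metric space `(X, ρ)`: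
`(max_{x ≠ y} ‖f x - f y‖ / ρ x y) * (max_{x ≠ y} ρ x y / ‖f x - f y‖)`. -/
noncomputable def distortion {X : Type*} (ρ : X → X → ℝ) (f : X → ell1) : ℝ :=
  (⨆ p : {p : X × X // p.1 ≠ p.2}, ‖f p.1.1 - f p.1.2‖ / ρ p.1.1 p.1.2) *
    (⨆ p : {p : X × X // p.1 ≠ p.2}, ρ p.1.1 p.1.2 / ‖f p.1.1 - f p.1.2‖)

/-- `c₁(X, ρ)`: the infimum of the distortions of injective maps `X → ℓ₁`. -/
noncomputable def c1 (X : Type*) (ρ : X → X → ℝ) : ℝ :=
  ⨅ f : {f : X → ell1 // Function.Injective f}, distortion ρ f.1

/-- The word of length `n` over the binary alphabet with letters `x 0, ..., x (n-1)`. -/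
def word {n : ℕ} (x : Fin n → Bool) : List Bool := List.ofFn x

/-- The edit distance on the set `{0,1}^n` of binary words of length `n`. -/
noncomputable def edDist (n : ℕ) (x y : Fin n → Bool) : ℝ := (ED (word x) (word y) : ℝ)

end Vale.Agent.P238
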