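import Vale.Agent.P238.Base

/-!
P238, piece [EDB]: localisation lemma for the edit distance, proved with alignments.
-/

namespace Vale.Agent.P238

namespace EdB

variable {α : Type*}

/-! ### basic facts on `Reach` -/

lemma edit_symm {x y : List α} (h : Edit x y) : Edit y x := by
  cases h with
  | ins u v a => exact Edit.del u v a
  | del u v a => exact Edit.ins u v a
  | sub u v a b => exact Edit.sub u v b a

lemma reach_trans {k : ℕ} {x y : List α} (h : Reach k x y) :
    ∀ {l : ℕ} {z : List α}, Reach l y z → Reach (k + l) x z := by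
  intro l z h2
  induction h2 with
  | refl => exact h
  | step _ he ih => exact Reach.step (ih h) he

lemma reach_one {x y : List α} (h : Edit x y) : Reach 1 x y :=
  Reach.step (Reach.refl x) h

lemma reach_symm {k : ℕ} {x y : List α} (h : Reach k x y) : Reach k y x := by
  induction h with
  | refl => exact Reach.refl _
  | step _ he ih =>
    have h1 := reach_trans (reach_one (edit_symm he)) ih
    rw [add_comm] at h1
    exact h1

lemma edit_append {x y : List α} (h : Edit x y) (l r : List α) :
    Edit (l ++ (x ++ r)) (l ++ (y ++ r)) := by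
  cases h with
  | ins u v a =>
    have := Edit.ins (l ++ u) (v ++ r) a
    simpa using this
  | del u v a =>
    have := Edit.del (l ++ u) (v ++ r) a
    simpa using this
  | sub u v a b =>
    have := Edit.sub (l ++ u) (v ++ r) a b
    simpa using this

lemma reach_append {k : ℕ} {x y : List α} (h : Reach k x y) (l r : List α) :
    Reach k (l ++ (x ++ r)) (l ++ (y ++ r)) := by
  induction h with
  | refl => exact Reach.refl _
  | step _ he ih => exact Reach.step ih (edit_append he l r)

/-- inserting a word -/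
lemma reach_ins (u v : List α) : ∀ w : List α, Reach w.length (u ++ v) (u ++ (w ++ v)) := by
  intro w
  induction w with
  | nil => exact Reach.refl _
  | cons a w ih =>
    have h := Reach.step ih (Edit.ins u (w ++ v) a)
    simpa using h

/-- deleting a word -/
lemma reach_del (u v w : List α) : Reach w.length (u ++ (w ++ v)) (u ++ v) :=
  reach_symm (reach_ins u v w)

lemma reach_exists (x y : List α) : ∃ k, Reach k x y := by
  have h1 := reach_del [] [] x
  have h2 := reach_ins [] [] y
  simp only [List.nil_append, List.append_nil] at h1 h2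
  exact ⟨_, reach_trans h1 h2⟩

lemma reach_ed (x y : List α) : Reach (ED x y) x y := by
  have h : ({k | Reach k x y} : Set ℕ).Nonempty := reach_exists x y
  exact Nat.sInf_mem h

lemma ed_le {k : ℕ} {x y : List α} (h : Reach k x y) : ED x y ≤ k := Nat.sInf_le h

/-! ### alignments -/

/-- alignment of two words with a given cost -/
inductive Al {α : Type*} : ℕ → List α → List α → Prop
  | nil : Al 0 [] []
  | mat {k : ℕ} {x y : List α} (a : α) : Al k x y → Al k (a :: x) (a :: y)
  | sub {k : ℕ} {x y : List α} (a b : α) : Al k x y → Al (k + 1) (a :: x) (b :: y)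
  | ins {k : ℕ} {x y : List α} (b : α) : Al k x y → Al (k + 1) x (b :: y)
  | del {k : ℕ} {x y : List α} (a : α) : Al k x y → Al (k + 1) (a :: x) y

lemma al_refl : ∀ x : List α, Al 0 x x
  | [] => Al.nil
  | a :: x => Al.mat a (al_refl x)

lemma al_symm {k : ℕ} {x y : List α} (h : Al k x y) : Al k y x := by
  induction h with
  | nil => exact Al.nil
  | mat a _ ih => exact Al.mat a ih
  | sub a b _ ih => exact Al.sub b a ih
  | ins b _ ih => exact Al.del b ih
  | del a _ ih => exact Al.ins a ih

lemma al_len {k : ℕ} {x y : List α} (h : Al k x y) :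
    x.length ≤ y.length + k ∧ y.length ≤ x.length + k := by
  induction h with
  | nil => simp
  | mat a _ ih => simp only [List.length_cons]; omega
  | sub a b _ ih => simp only [List.length_cons]; omega
  | ins b _ ih => simp only [List.length_cons]; omega
  | del a _ ih => simp only [List.length_cons]; omega

lemma al_append {k : ℕ} {x y : List α} (h : Al k x y) {l : ℕ} {z w : List α} (h2 : Al l z w) :
    Al (k + l) (x ++ z) (y ++ w) := by
  induction h with
  | nil => simpa using h2
  | mat a _ ih => exact Al.mat a ih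
  | sub a b _ ih =>
    have := Al.sub a b ih
    rw [Nat.add_right_comm] at this
    exact this
  | ins b _ ih =>
    have := Al.ins b ih
    rw [Nat.add_right_comm] at this
    exact this
  | del a _ ih =>
    have := Al.del a ih
    rw [Nat.add_right_comm] at this
    exact this

lemma al_split_right {k : ℕ} {x y : List α} (h : Al k x y) :
    ∀ u w : List α, y = u ++ w →
      ∃ x1 x2 k1 k2, x = x1 ++ x2 ∧ k = k1 + k2 ∧ Al k1 x1 u ∧ Al k2 x2 w := by
  induction h with
  | nil =>
    intro u w h
    have h' := List.append_eq_nil_iff.1 h.symm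
    obtain ⟨rfl, rfl⟩ := h'
    exact ⟨[], [], 0, 0, rfl, rfl, Al.nil, Al.nil⟩
  | @mat k x y a h ih =>
    intro u w hy
    cases u with
    | nil =>
      simp only [List.nil_append] at hy
      subst hy
      exact ⟨[], a :: x, 0, k, rfl, (Nat.zero_add k).symm, Al.nil, Al.mat a h⟩
    | cons c u =>
      simp only [List.cons_append, List.cons.injEq] at hy
      obtain ⟨rfl, hy⟩ := hy
      obtain ⟨x1, x2, k1, k2, hx, hk, h1, h2⟩ := ih u w hy
      exact ⟨a :: x1, x2, k1, k2, by rw [hx]; rfl, hk, Al.mat a h1, h2⟩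
  | @sub k x y a b h ih =>
    intro u w hy
    cases u with
    | nil =>
      simp only [List.nil_append] at hy
      subst hy
      exact ⟨[], a :: x, 0, k + 1, rfl, (Nat.zero_add _).symm, Al.nil, Al.sub a b h⟩
    | cons c u =>
      simp only [List.cons_append, List.cons.injEq] at hy
      obtain ⟨rfl, hy⟩ := hy
      obtain ⟨x1, x2, k1, k2, hx, hk, h1, h2⟩ := ih u w hy
      exact ⟨a :: x1, x2, k1 + 1, k2, by rw [hx]; rfl, by omega, Al.sub a b h1, h2⟩
  | @ins k x y b h ih =>
    intro u w hy
    cases u with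
    | nil =>
      simp only [List.nil_append] at hy
      subst hy
      exact ⟨[], x, 0, k + 1, rfl, (Nat.zero_add _).symm, Al.nil, Al.ins b h⟩
    | cons c u =>
      simp only [List.cons_append, List.cons.injEq] at hy
      obtain ⟨rfl, hy⟩ := hy
      obtain ⟨x1, x2, k1, k2, hx, hk, h1, h2⟩ := ih u w hy
      exact ⟨x1, x2, k1 + 1, k2, hx, by omega, Al.ins b h1, h2⟩
  | @del k x y a h ih =>
    intro u w hy
    obtain ⟨x1, x2, k1, k2, hx, hk, h1, h2⟩ := ih u w hy
    exact ⟨a :: x1, x2, k1 + 1, k2, by rw [hx]; rfl, by omega, Al.del a h1, h2⟩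

lemma al_split_left {k : ℕ} {x y : List α} (h : Al k x y) (u w : List α) (hx : x = u ++ w) :
    ∃ y1 y2 k1 k2, y = y1 ++ y2 ∧ k = k1 + k2 ∧ Al k1 u y1 ∧ Al k2 w y2 := by
  obtain ⟨y1, y2, k1, k2, hy, hk, h1, h2⟩ := al_split_right (al_symm h) u w hx
  exact ⟨y1, y2, k1, k2, hy, hk, al_symm h1, al_symm h2⟩

lemma al_tail {k : ℕ} {x y : List α} (h : Al k x y) :
    ∀ (a : α) (v : List α), y = a :: v → ∃ j ≤ k + 1, Al j x v := by
  induction h with
  | nil => intro a v h; exact absurd h (by simp)
  | @mat k x y b h ih =>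
    intro a v hy
    simp only [List.cons.injEq] at hy
    obtain ⟨rfl, rfl⟩ := hy
    exact ⟨k + 1, le_refl _, Al.del b h⟩
  | @sub k x y c b h ih =>
    intro a v hy
    simp only [List.cons.injEq] at hy
    obtain ⟨rfl, rfl⟩ := hy
    exact ⟨k + 1, by omega, Al.del c h⟩
  | @ins k x y b h ih =>
    intro a v hy
    simp only [List.cons.injEq] at hy
    obtain ⟨rfl, rfl⟩ := hy
    exact ⟨k, by omega, h⟩
  | @del k x y c h ih =>
    intro a v hy
    obtain ⟨j, hj, hA⟩ := ih a v hy
    exact ⟨j + 1, by omega, Al.del c hA⟩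

lemma al_subst {k : ℕ} {x y : List α} (h : Al k x y) :
    ∀ (a b : α) (v : List α), y = a :: v → ∃ j ≤ k + 1, Al j x (b :: v) := by
  induction h with
  | nil => intro a b v h; exact absurd h (by simp)
  | @mat k x y c h ih =>
    intro a b v hy
    simp only [List.cons.injEq] at hy
    obtain ⟨rfl, rfl⟩ := hy
    exact ⟨k + 1, le_refl _, Al.sub c b h⟩
  | @sub k x y c d h ih =>
    intro a b v hy
    simp only [List.cons.injEq] at hy
    obtain ⟨rfl, rfl⟩ := hy
    exact ⟨k + 1, by omega, Al.sub c b h⟩
  | @ins k x y c h ih =>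
    intro a b v hy
    simp only [List.cons.injEq] at hy
    obtain ⟨rfl, rfl⟩ := hy
    exact ⟨k + 1, by omega, Al.ins b h⟩
  | @del k x y c h ih =>
    intro a b v hy
    obtain ⟨j, hj, hA⟩ := ih a b v hy
    exact ⟨j + 1, by omega, Al.del c hA⟩

lemma al_edit {k : ℕ} {x y z : List α} (h : Al k x y) (he : Edit y z) :
    ∃ j ≤ k + 1, Al j x z := by
  cases he with
  | ins u v a =>
    obtain ⟨x1, x2, k1, k2, hx, hk, h1, h2⟩ := al_split_right h u v rfl
    refine ⟨k + 1, le_refl _, ?_⟩
    rw [hx, hk]
    exact al_append h1 (Al.ins a h2)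
  | del u v a =>
    obtain ⟨x1, x2, k1, k2, hx, hk, h1, h2⟩ := al_split_right h u (a :: v) rfl
    obtain ⟨j, hj, hA⟩ := al_tail h2 a v rfl
    refine ⟨k1 + j, by omega, ?_⟩
    rw [hx]
    exact al_append h1 hA
  | sub u v a b =>
    obtain ⟨x1, x2, k1, k2, hx, hk, h1, h2⟩ := al_split_right h u (a :: v) rfl
    obtain ⟨j, hj, hA⟩ := al_subst h2 a b v rfl
    refine ⟨k1 + j, by omega, ?_⟩
    rw [hx]
    exact al_append h1 hA

lemma al_of_reach {k : ℕ} {x y : List α} (h : Reach k x y) : ∃ j ≤ k, Al j x y := by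
  induction h with
  | refl => exact ⟨0, le_refl _, al_refl _⟩
  | step _ he ih =>
    obtain ⟨j, hj, hA⟩ := ih
    obtain ⟨i, hi, hB⟩ := al_edit hA he
    exact ⟨i, by omega, hB⟩

lemma reach_of_al {k : ℕ} {x y : List α} (h : Al k x y) : Reach k x y := by
  induction h with
  | nil => exact Reach.refl _
  | @mat k x y a h ih =>
    have := reach_append ih [a] []
    simpa using this
  | @sub k x y a b h ih =>
    have h1 := reach_append ih [a] []
    have h2 := Reach.step h1 (Edit.sub [] (y ++ []) a b)
    simpa using h2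
  | @ins k x y b h ih =>
    exact Reach.step ih (Edit.ins [] y b)
  | @del k x y a h ih =>
    have h1 := reach_append ih [a] []
    simp only [List.singleton_append, List.append_nil] at h1
    exact Reach.step h1 (Edit.del [] y a)

/-! ### windows -/

lemma win1 {a b r t : List α} (h : a ++ r = b ++ t) {k : ℕ} (h1 : r.length ≤ t.length + k)
    (h2 : t.length ≤ r.length + k) : ∃ m ≤ k, Reach m a b := by
  rcases List.append_eq_append_iff.1 h with ⟨w, hb, hr⟩ | ⟨w, ha, ht⟩
  · refine ⟨w.length, ?_, ?_⟩
    · rw [hr, List.length_append] at h1; omega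
    · rw [hb]
      have := reach_ins a [] w
      simpa using this
  · refine ⟨w.length, ?_, ?_⟩
    · rw [ht, List.length_append] at h2; omega
    · rw [ha]
      have := reach_del b [] w
      simpa using this

lemma win2 {y1 y2 r u Q t : List α} (h : y1 ++ (y2 ++ r) = u ++ (Q ++ t)) {k l : ℕ}
    (h1 : r.length ≤ t.length + k) (h2 : t.length ≤ r.length + k)
    (h3 : y1.length ≤ u.length + l) (h4 : u.length ≤ y1.length + l) :
    ∃ m ≤ k + l, Reach m y2 Q := by
  rcases List.append_eq_append_iff.1 h with ⟨w, hb, hr⟩ | ⟨w, ha, ht⟩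
  · -- u = y1 ++ w, y2 ++ r = w ++ (Q ++ t)
    have h5 : y2 ++ r = (w ++ Q) ++ t := by rw [hr, List.append_assoc]
    obtain ⟨m, hm, hR⟩ := win1 h5 h1 h2
    have h6 : Reach w.length (w ++ Q) Q := by
      have := reach_del [] Q w
      simpa using this
    refine ⟨m + w.length, ?_, reach_trans hR h6⟩
    rw [hb, List.length_append] at h4
    omega
  · -- y1 = u ++ w, Q ++ t = w ++ (y2 ++ r)
    have h5 : Q ++ t = (w ++ y2) ++ r := by rw [ht, List.append_assoc]
    obtain ⟨m, hm, hR⟩ := win1 h5 h2 h1
    have h6 : Reach w.length y2 (w ++ y2) := by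
      have := reach_ins [] y2 w
      simpa using this
    refine ⟨w.length + m, ?_, reach_trans h6 (reach_symm hR)⟩
    rw [ha, List.length_append] at h3
    omega

end EdB

/-- sharper form of the localisation lemma -/
theorem ED_block_sharp {α : Type*} (u P Q v : List α) (h : P.length = Q.length) :
    ED P Q ≤ ED (u ++ (P ++ (Q ++ v))) (u ++ (Q ++ (P ++ v))) := by
  obtain ⟨j, hj, hA⟩ :=
    EdB.al_of_reach (EdB.reach_ed (u ++ (P ++ (Q ++ v))) (u ++ (Q ++ (P ++ v))))
  obtain ⟨y1, y', k1, k', hy, hk, h1, h'⟩ := EdB.al_split_left hA u _ rfl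
  obtain ⟨y2, y3, k2, k3, hy', hk', h2, h3⟩ := EdB.al_split_left h' P _ rfl
  rw [hy'] at hy
  have l1 := EdB.al_len h1
  have l3 := EdB.al_len h3
  simp only [List.length_append] at l3
  obtain ⟨m, hm, hR⟩ := EdB.win2 hy.symm (k := k3) (l := k1)
    (by simp only [List.length_append]; omega) (by simp only [List.length_append]; omega)
    (by omega) (by omega)
  have hfin := EdB.ed_le (EdB.reach_trans (EdB.reach_of_al h2) hR)
  omega

/- [EDB] localisation lemma (alignments) -/
theorem ED_block {α : Type*} (u P Q v : List α) (h : P.length = Q.length) :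
    ED P Q ≤ 2 * ED (u ++ (P ++ (Q ++ v))) (u ++ (Q ++ (P ++ v))) := by
  have := ED_block_sharp u P Q v h
  omega

end Vale.Agent.P238
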