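import Vale.Agent.P238.Base

/-!
P238, [EDU]: metric properties and upper bounds for the edit distance.
-/

namespace Vale.Agent.P238

open Finset

namespace EdUp

lemma edit_symm {α : Type*} {x y : List α} (h : Edit x y) : Edit y x := by
  cases h with
  | ins u v a => exact Edit.del u v a
  | del u v a => exact Edit.ins u v a
  | sub u v a b => exact Edit.sub u v b a

lemma reach_trans {α : Type*} {k l : ℕ} {x y z : List α} (h1 : Reach k x y) (h2 : Reach l y z) :
    Reach (k + l) x z := by
  induction h2 with
  | refl _ => exact h1
  | step _ h4 ih => exact Reach.step (ih h1) h4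

lemma reach_one {α : Type*} {x y : List α} (h : Edit x y) : Reach 1 x y :=
  Reach.step (Reach.refl x) h

lemma reach_symm {α : Type*} {k : ℕ} {x y : List α} (h : Reach k x y) : Reach k y x := by
  induction h with
  | refl _ => exact Reach.refl _
  | step _ h4 ih =>
    have := reach_trans (reach_one (edit_symm h4)) ih
    rwa [add_comm] at this

lemma reach_ins {α : Type*} (u v l : List α) : Reach l.length (u ++ v) (u ++ (l ++ v)) := by
  induction l with
  | nil => exact Reach.refl _
  | cons a l ih => exact Reach.step ih (Edit.ins u (l ++ v) a)

lemma reach_del {α : Type*} (u v l : List α) : Reach l.length (u ++ (l ++ v)) (u ++ v) :=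
  reach_symm (reach_ins u v l)

lemma reach_exists {α : Type*} (x y : List α) : ∃ k, Reach k x y := by
  have h1 := reach_del [] [] x
  have h2 := reach_ins [] [] y
  simp only [List.nil_append, List.append_nil] at h1 h2
  exact ⟨_, reach_trans h1 h2⟩

lemma reach_zero {α : Type*} {k : ℕ} {x y : List α} (h : Reach k x y) (hk : k = 0) : x = y := by
  cases h with
  | refl _ => rfl
  | step _ _ => omega

/-- rotation of a factor -/
lemma reach_rot {α : Type*} (A P Q B : List α) :
    Reach (2 * P.length) (A ++ (P ++ (Q ++ B))) (A ++ (Q ++ (P ++ B))) := by
  have h1 := reach_del A (Q ++ B) P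
  have h2 := reach_ins (A ++ Q) B P
  rw [List.append_assoc, List.append_assoc] at h2
  have h3 := reach_trans h1 h2
  rwa [← two_mul] at h3

end EdUp

open EdUp

theorem reach_ED {α : Type*} (x y : List α) : Reach (ED x y) x y :=
  Nat.sInf_mem (reach_exists x y)

theorem ED_le {α : Type*} {k : ℕ} {x y : List α} (h : Reach k x y) : ED x y ≤ k :=
  Nat.sInf_le h

theorem ED_comm {α : Type*} (x y : List α) : ED x y = ED y x :=
  le_antisymm (ED_le (reach_symm (reach_ED y x))) (ED_le (reach_symm (reach_ED x y)))

theorem ED_triangle {α : Type*} (x y z : List α) : ED x z ≤ ED x y + ED y z :=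
  ED_le (reach_trans (reach_ED x y) (reach_ED y z))

theorem ED_eq_zero {α : Type*} (x y : List α) : ED x y = 0 ↔ x = y := by
  constructor
  · intro h
    exact reach_zero (reach_ED x y) h
  · rintro rfl
    exact Nat.le_zero.1 (ED_le (Reach.refl x))

theorem ED_flip {n : ℕ} (i : Fin n) (x : Fin n → Bool) (t : List Bool) :
    ED (word x ++ t) (word (flip i x) ++ t) ≤ 1 := by
  apply ED_le
  have hl : i.1 < (word x).length := by simp [word]
  have e1 : word x = (word x).take i.1 ++ (word x)[i.1] :: (word x).drop (i.1 + 1) := by
    rw [List.getElem_cons_drop, List.take_append_drop]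
  have e0 : word (flip i x) = (word x).set i.1 (!x i) := by
    apply List.ext_getElem
    · simp [word]
    · intro k h1 h2
      simp only [word, List.getElem_ofFn, List.getElem_set, flip, Function.update_apply, Fin.ext_iff]
      by_cases h : i.1 = k
      · simp [h]
      · rw [if_neg h, if_neg (fun h' => h h'.symm)]
  have e2 : word (flip i x) = (word x).take i.1 ++ (!x i) :: (word x).drop (i.1 + 1) := by
    rw [e0, List.set_eq_take_append_cons_drop, if_pos hl]
  rw [e2]
  conv_lhs => rw [e1]
  rw [List.append_assoc, List.append_assoc]
  exact reach_one (Edit.sub _ _ _ _)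

theorem ED_rot {L c : ℕ} (j s : ℕ) (hc : c ≤ L) (hs : s ≤ 2 ^ c) (x : Fin (2 ^ L) → Bool)
    (t : List Bool) : ED (word x ++ t) (word (x ∘ rot L c j s) ++ t) ≤ 2 * s := by
  have hp : 0 < 2 ^ c := by positivity
  by_cases hj : j < 2 ^ (L - c)
  · have hle : j * 2 ^ c + 2 ^ c ≤ 2 ^ L := by
      have h1 : 2 ^ L = 2 ^ (L - c) * 2 ^ c := by rw [← pow_add, Nat.sub_add_cancel hc]
      rw [h1, ← Nat.succ_mul]
      exact Nat.mul_le_mul_right _ hj
    set w := word x with hw
    have hlen : w.length = 2 ^ L := by simp [hw, word]
    have hrotN : ∀ k, rotN c j s k =
        if k / 2 ^ c = j then j * 2 ^ c + (k % 2 ^ c + s) % 2 ^ c else k := fun k => rfl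
    obtain ⟨m, hm⟩ : ∃ m, m = 2 ^ c := ⟨_, rfl⟩
    rw [← hm] at hp hs hle
    simp only [← hm] at hrotN
    set A := w.take (j * m) with hA
    set P := (w.drop (j * m)).take s with hP
    set Q := (w.drop (j * m + s)).take (m - s) with hQ
    set B := w.drop (j * m + m) with hB
    have hAl : A.length = j * m := by rw [hA, List.length_take, hlen]; omega
    have hPl : P.length = s := by rw [hP, List.length_take, List.length_drop, hlen]; omega
    have hQl : Q.length = m - s := by rw [hQ, List.length_take, List.length_drop, hlen]; omega
    have hBl : B.length = 2 ^ L - (j * m + m) := by rw [hB, List.length_drop, hlen]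
    have e1 : w = A ++ (P ++ (Q ++ B)) := by
      have h1 : w.drop (j * m + s) = Q ++ B := by
        have h := List.take_append_drop (m - s) (w.drop (j * m + s))
        rw [List.drop_drop, show j * m + s + (m - s) = j * m + m by omega] at h
        exact h.symm
      have h2 : w.drop (j * m) = P ++ (Q ++ B) := by
        have h := List.take_append_drop s (w.drop (j * m))
        rw [List.drop_drop, h1] at h
        exact h.symm
      have h := List.take_append_drop (j * m) w
      rw [h2] at h
      exact h.symm
    have e2 : word (x ∘ rot L c j s) = A ++ (Q ++ (P ++ B)) := by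
      apply List.ext_getElem
      · simp only [List.length_append, hAl, hPl, hQl, hBl, word, List.length_ofFn]
        omega
      · intro k h1 h2
        have hk : k < 2 ^ L := by simpa [word] using h1
        have hwk : ∀ (k' : ℕ) (h' : k' < w.length), w[k'] = x ⟨k', by rwa [hlen] at h'⟩ := by
          intro k' h'
          simp [hw, word]
        have hrot : (rot L c j s ⟨k, hk⟩).1 = rotN c j s k := rot_val j s hc _
        have hlhs : (word (x ∘ rot L c j s))[k] = x (rot L c j s ⟨k, hk⟩) := by
          simp [word]
        rw [hlhs]
        have hdiv : k / m = j ↔ j * m ≤ k ∧ k < j * m + m := by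
          constructor
          · intro h3
            have h4 := Nat.div_add_mod' k m
            have h5 := Nat.mod_lt k hp
            rw [h3] at h4
            omega
          · rintro ⟨h3, h4⟩
            rw [Nat.div_eq_iff hp]
            omega
        by_cases hk1 : k < j * m
        · rw [List.getElem_append_left (by rw [hAl]; exact hk1)]
          simp only [hA, List.getElem_take]
          rw [hwk]
          congr 1
          apply Fin.ext
          rw [hrot, hrotN, if_neg (by rw [hdiv]; omega)]
        · push Not at hk1
          rw [List.getElem_append_right (by rw [hAl]; exact hk1)]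
          by_cases hk2 : k < j * m + (m - s)
          · rw [List.getElem_append_left (by rw [hAl, hQl]; omega)]
            simp only [hQ, List.getElem_take, List.getElem_drop]
            rw [hwk]
            congr 1
            apply Fin.ext
            rw [hrot, hrotN, if_pos (by rw [hdiv]; omega)]
            have h3 : k % m = k - j * m := by
              have h4 := Nat.div_add_mod' k m
              rw [hdiv.2 ⟨hk1, by omega⟩] at h4
              omega
            rw [h3, Nat.mod_eq_of_lt (by omega)]
            simp only [hAl]
            omega
          · push Not at hk2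
            rw [List.getElem_append_right (by rw [hAl, hQl]; omega)]
            by_cases hk3 : k < j * m + m
            · rw [List.getElem_append_left (by rw [hAl, hQl, hPl]; omega)]
              simp only [hP, List.getElem_take, List.getElem_drop]
              rw [hwk]
              congr 1
              apply Fin.ext
              rw [hrot, hrotN, if_pos (by rw [hdiv]; omega)]
              have h3 : k % m = k - j * m := by
                have h4 := Nat.div_add_mod' k m
                rw [hdiv.2 ⟨hk1, by omega⟩] at h4
                omega
              have h5 : (k - j * m + s) % m = k - j * m + s - m := by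
                rw [Nat.mod_eq_sub_mod (by omega), Nat.mod_eq_of_lt (by omega)]
              rw [h3, h5]
              simp only [hAl, hQl]
              omega
            · push Not at hk3
              rw [List.getElem_append_right (by rw [hAl, hQl, hPl]; omega)]
              simp only [hB, List.getElem_drop]
              rw [hwk]
              congr 1
              apply Fin.ext
              rw [hrot, hrotN, if_neg (by rw [hdiv]; omega)]
              simp only [hAl, hQl, hPl]
              omega
    rw [e2]
    conv_lhs => rw [e1]
    apply ED_le
    have h3 := reach_rot A P Q (B ++ t)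
    rw [hPl] at h3
    simpa [List.append_assoc] using h3
  · have h1 : x ∘ rot L c j s = x := by
      funext i
      simp only [Function.comp]
      congr 1
      apply Fin.ext
      rw [rot_val j s hc i, rotN, if_neg]
      intro h2
      exact hj (h2 ▸ div_lt_of_lt hc i.2)
    rw [h1, (ED_eq_zero _ _).2 rfl]
    exact Nat.zero_le _

end Vale.Agent.P238
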