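import Vale.Agent.P238.Ball
import Vale.Agent.P238.EdBlock
import Vale.Agent.P238.Block

/-!
The swap of two halves of a dyadic block moves a typical word far away.
-/

namespace Vale.Agent.P238

open Finset


theorem word_getElem {n : ℕ} (x : Fin n → Bool) (i : ℕ) (h : i < (word x).length) :
    (word x)[i] = x ⟨i, by simpa [word] using h⟩ := by
  simp [word]

theorem far_num (m : ℕ) (hm : 1 ≤ m) :
    (2 * 16 ^ m * (3 / 2) ^ (16 * m) : ℝ) ≤ 2 ^ (16 * m) / 2 := by
  rw [pow_mul, pow_mul, mul_assoc, ← mul_pow]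
  obtain ⟨k, rfl⟩ : ∃ k, m = k + 1 := ⟨m - 1, by omega⟩
  induction k with
  | zero => norm_num
  | succ k ih =>
    have ih' := ih (by omega)
    have h1 : (0 : ℝ) ≤ (16 * (3 / 2 : ℝ) ^ 16) ^ (k + 1) := by positivity
    have h2 : (0 : ℝ) ≤ ((2 : ℝ) ^ 16) ^ (k + 1) := by positivity
    rw [pow_succ _ (k + 1), pow_succ _ (k + 1)]
    have h3 : (16 * (3 / 2 : ℝ) ^ 16) ≤ 2 ^ 16 := by norm_num
    calc 2 * ((16 * (3 / 2 : ℝ) ^ 16) ^ (k + 1) * (16 * (3 / 2) ^ 16))
        = (2 * (16 * (3 / 2 : ℝ) ^ 16) ^ (k + 1)) * (16 * (3 / 2) ^ 16) := by ring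
      _ ≤ ((2 ^ 16) ^ (k + 1) / 2) * 2 ^ 16 := mul_le_mul ih' h3 (by positivity) (by positivity)
      _ = _ := by ring

/-- the average distance of a word to a random word -/
theorem far_ball (q m : ℕ) (hq : q = 16 * m) (hm : 1 ≤ m) (P : List Bool) (hP : P.length = q) :
    (m : ℝ) / 2 * 2 ^ q ≤ ∑ z : Fin q → Bool, (ED P (word z) : ℝ) := by
  have h1 := ball_card q m P hP
  have h2 := far_num m hm
  rw [← hq] at h2
  have h3 : ((Finset.univ.filter (fun z : Fin q → Bool => ¬ ED P (word z) ≤ m)).card : ℝ)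
      = 2 ^ q - ((Finset.univ.filter (fun z : Fin q → Bool => ED P (word z) ≤ m)).card : ℝ) := by
    have h4 := Finset.card_filter_add_card_filter_not (s := (Finset.univ : Finset (Fin q → Bool)))
      (fun z : Fin q → Bool => ED P (word z) ≤ m)
    have h5 : (Finset.univ : Finset (Fin q → Bool)).card = 2 ^ q := by
      simp [Finset.card_univ]
    rw [h5] at h4
    have h6 : (((Finset.univ.filter (fun z : Fin q → Bool => ED P (word z) ≤ m)).card
      + (Finset.univ.filter (fun z : Fin q → Bool => ¬ ED P (word z) ≤ m)).card : ℕ) : ℝ)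
      = ((2 ^ q : ℕ) : ℝ) := by rw [h4]
    push_cast at h6
    linarith
  have h7 : (2 : ℝ) ^ q / 2
      ≤ ((Finset.univ.filter (fun z : Fin q → Bool => ¬ ED P (word z) ≤ m)).card : ℝ) := by
    rw [h3]; linarith
  calc (m : ℝ) / 2 * 2 ^ q = m * (2 ^ q / 2) := by ring
    _ ≤ m * ((Finset.univ.filter (fun z : Fin q → Bool => ¬ ED P (word z) ≤ m)).card : ℝ) :=
        mul_le_mul_of_nonneg_left h7 (by positivity)
    _ = ∑ z ∈ Finset.univ.filter (fun z : Fin q → Bool => ¬ ED P (word z) ≤ m), (m : ℝ) := by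
        rw [Finset.sum_const, nsmul_eq_mul]; ring
    _ ≤ ∑ z ∈ Finset.univ.filter (fun z : Fin q → Bool => ¬ ED P (word z) ≤ m),
          (ED P (word z) : ℝ) := by
        refine Finset.sum_le_sum (fun z hz => ?_)
        rw [Finset.mem_filter] at hz
        have := hz.2
        exact_mod_cast (by omega : m ≤ ED P (word z))
    _ ≤ _ := Finset.sum_le_sum_of_subset_of_nonneg (Finset.filter_subset _ _)
        (fun _ _ _ => by positivity)

section decomp

variable {L a j : ℕ}

theorem block_bound (ha : a + 1 ≤ L) (hj : j < 2 ^ (L - (a + 1))) :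
    j * 2 ^ (a + 1) + 2 ^ (a + 1) ≤ 2 ^ L := by
  have h1 : 2 ^ L = 2 ^ (L - (a + 1)) * 2 ^ (a + 1) := by rw [← pow_add, Nat.sub_add_cancel ha]
  rw [h1, ← Nat.succ_mul]
  exact Nat.mul_le_mul_right _ hj

/-- decomposition of a word and of its swap -/
theorem word_swp (ha : a + 1 ≤ L) (hj : j < 2 ^ (L - (a + 1))) (x : Fin (2 ^ L) → Bool) :
    ∃ u v : List Bool,
      word x = u ++ (word (fun i : Fin (2 ^ a) => x ⟨j * 2 ^ (a + 1) + i.1, by
        have := block_bound ha hj; have := i.2; rw [pow_succ] at *; omega⟩) ++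
        (word (fun i : Fin (2 ^ a) => x ⟨j * 2 ^ (a + 1) + 2 ^ a + i.1, by
        have := block_bound ha hj; have := i.2; rw [pow_succ] at *; omega⟩) ++ v)) ∧
      word (x ∘ swp L a j) =
        u ++ (word (fun i : Fin (2 ^ a) => x ⟨j * 2 ^ (a + 1) + 2 ^ a + i.1, by
        have := block_bound ha hj; have := i.2; rw [pow_succ] at *; omega⟩) ++
        (word (fun i : Fin (2 ^ a) => x ⟨j * 2 ^ (a + 1) + i.1, by
        have := block_bound ha hj; have := i.2; rw [pow_succ] at *; omega⟩) ++ v)) := by
  have hb := block_bound ha hj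
  have hp : 0 < 2 ^ a := by positivity
  have hp2 : 2 ^ (a + 1) = 2 ^ a + 2 ^ a := by rw [pow_succ]; ring
  have hsw : ∀ i : Fin (2 ^ L), (swp L a j i).1 = swpN a j i.1 := fun i => swp_val j ha i
  have hlen : ∀ y : Fin (2 ^ L) → Bool, (word y).length = 2 ^ L := by intro y; simp [word]
  -- general elements of the swap
  have e1 : ∀ i : ℕ, i < j * 2 ^ (a + 1) → swpN a j i = i := by
    intro i hi
    unfold swpN
    rw [if_neg]
    intro h
    rw [← h] at hi
    exact absurd (Nat.div_mul_le_self i (2 ^ (a + 1))) (by omega)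
  have e4 : ∀ i : ℕ, j * 2 ^ (a + 1) + 2 ^ (a + 1) ≤ i → swpN a j i = i := by
    intro i hi
    unfold swpN
    rw [if_neg]
    intro h
    have := Nat.lt_div_mul_add (a := i) (b := 2 ^ (a + 1)) (by positivity)
    rw [h] at this
    omega
  have e2 : ∀ i : ℕ, i < 2 ^ a → swpN a j (j * 2 ^ (a + 1) + i) = j * 2 ^ (a + 1) + 2 ^ a + i := by
    intro i hi
    have h1 : (j * 2 ^ (a + 1) + i) / 2 ^ (a + 1) = j := by
      rw [mul_comm, Nat.mul_add_div (by positivity), Nat.div_eq_of_lt (by omega), add_zero]
    have h2 : (j * 2 ^ (a + 1) + i) % 2 ^ (a + 1) = i := by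
      rw [mul_comm, Nat.mul_add_mod, Nat.mod_eq_of_lt (by omega)]
    unfold swpN
    rw [if_pos h1, h2, if_pos hi]
    omega
  have e3 : ∀ i : ℕ, i < 2 ^ a → swpN a j (j * 2 ^ (a + 1) + 2 ^ a + i) = j * 2 ^ (a + 1) + i := by
    intro i hi
    have h1 : (j * 2 ^ (a + 1) + 2 ^ a + i) / 2 ^ (a + 1) = j := by
      rw [mul_comm, add_assoc, Nat.mul_add_div (by positivity), Nat.div_eq_of_lt (by omega),
        add_zero]
    have h2 : (j * 2 ^ (a + 1) + 2 ^ a + i) % 2 ^ (a + 1) = 2 ^ a + i := by
      rw [mul_comm, add_assoc, Nat.mul_add_mod, Nat.mod_eq_of_lt (by omega)]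
    unfold swpN
    rw [if_pos h1, h2, if_neg (by omega)]
    omega
  obtain ⟨s, hs⟩ : ∃ s, s = j * 2 ^ (a + 1) := ⟨_, rfl⟩
  refine ⟨(word x).take s, (((word x).drop s).drop (2 ^ a)).drop (2 ^ a), ?_, ?_⟩
  · have k1 : ((word x).drop s).take (2 ^ a) = word (fun i : Fin (2 ^ a) =>
        x ⟨j * 2 ^ (a + 1) + i.1, by have := i.2; omega⟩) := by
      apply List.ext_getElem
      · simp only [word, List.length_take, List.length_drop, List.length_ofFn]; omega
      · intro i h1 h2
        rw [List.getElem_take, List.getElem_drop, word_getElem, word_getElem]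
        congr 1
        apply Fin.ext
        simp only [hs]
    have k2 : (((word x).drop s).drop (2 ^ a)).take (2 ^ a) = word (fun i : Fin (2 ^ a) =>
        x ⟨j * 2 ^ (a + 1) + 2 ^ a + i.1, by have := i.2; omega⟩) := by
      apply List.ext_getElem
      · simp only [word, List.length_take, List.length_drop, List.length_ofFn]; omega
      · intro i h1 h2
        rw [List.getElem_take, List.getElem_drop, List.getElem_drop, word_getElem, word_getElem]
        congr 1
        apply Fin.ext
        simp only [hs, add_assoc]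
    rw [← k1, ← k2, List.take_append_drop, List.take_append_drop, List.take_append_drop]
  · obtain ⟨w, hw⟩ : ∃ w, w = word (x ∘ swp L a j) := ⟨_, rfl⟩
    have hwl : w.length = 2 ^ L := by rw [hw, hlen]
    have k0 : (word x).take s = w.take s := by
      apply List.ext_getElem
      · simp only [List.length_take, hwl, hlen]
      · intro i h1 h2
        have hi : i < s := by
          rw [List.length_take] at h1; omega
        rw [List.getElem_take, List.getElem_take]
        simp only [hw]
        rw [word_getElem, word_getElem]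
        simp only [Function.comp]
        congr 1
        apply Fin.ext
        rw [hsw]
        exact (e1 i (by rw [← hs]; exact hi)).symm
    have k1 : (w.drop s).take (2 ^ a) = word (fun i : Fin (2 ^ a) =>
        x ⟨j * 2 ^ (a + 1) + 2 ^ a + i.1, by have := i.2; omega⟩) := by
      apply List.ext_getElem
      · simp only [word, List.length_take, List.length_drop, List.length_ofFn, hwl]; omega
      · intro i h1 h2
        have hi : i < 2 ^ a := by rw [List.length_take] at h1; omega
        rw [List.getElem_take, List.getElem_drop]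
        simp only [hw]
        rw [word_getElem, word_getElem]
        simp only [Function.comp]
        congr 1
        apply Fin.ext
        rw [hsw]
        simp only [hs]
        exact e2 i hi
    have k2 : ((w.drop s).drop (2 ^ a)).take (2 ^ a) = word (fun i : Fin (2 ^ a) =>
        x ⟨j * 2 ^ (a + 1) + i.1, by have := i.2; omega⟩) := by
      apply List.ext_getElem
      · simp only [word, List.length_take, List.length_drop, List.length_ofFn, hwl]; omega
      · intro i h1 h2
        have hi : i < 2 ^ a := by rw [List.length_take] at h1; omega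
        rw [List.getElem_take, List.getElem_drop, List.getElem_drop]
        simp only [hw]
        rw [word_getElem, word_getElem]
        simp only [Function.comp]
        congr 1
        apply Fin.ext
        rw [hsw]
        simp only [hs]
        rw [← add_assoc]
        exact e3 i hi
    have k3 : (((word x).drop s).drop (2 ^ a)).drop (2 ^ a)
        = ((w.drop s).drop (2 ^ a)).drop (2 ^ a) := by
      apply List.ext_getElem
      · simp only [List.length_drop, hwl, hlen]
      · intro i h1 h2
        rw [List.getElem_drop, List.getElem_drop, List.getElem_drop, List.getElem_drop,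
          List.getElem_drop, List.getElem_drop]
        simp only [hw]
        rw [word_getElem, word_getElem]
        simp only [Function.comp]
        congr 1
        apply Fin.ext
        rw [hsw]
        exact (e4 _ (by rw [← hs, hp2]; simp only; omega)).symm
    rw [k0, k3, ← k1, ← k2, List.take_append_drop, List.take_append_drop, List.take_append_drop,
      hw]

end decomp

theorem far (L a j : ℕ) (ha : a + 1 ≤ L) (hj : j < 2 ^ (L - (a + 1))) (h4 : 4 ≤ a)
    (t : List Bool) :
    (1 / 64 : ℝ) * 2 ^ a * 2 ^ (2 ^ L)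
      ≤ ∑ x : Fin (2 ^ L) → Bool, (ED (word x ++ t) (word (x ∘ swp L a j) ++ t) : ℝ) := by
  have hb := block_bound ha hj
  have hp2 : 2 ^ (a + 1) = 2 ^ a + 2 ^ a := by rw [pow_succ]; ring
  have hj2 : 2 * j + 1 < 2 ^ (L - a) := by
    have : 2 ^ (L - a) = 2 * 2 ^ (L - (a + 1)) := by
      rw [← pow_succ']; congr 1; omega
    omega
  obtain ⟨m, hm⟩ : ∃ m, 2 ^ a = 16 * m := by
    refine ⟨2 ^ (a - 4), ?_⟩
    rw [show (16 : ℕ) = 2 ^ 4 by norm_num, ← pow_add]; congr 1; omega
  have hm1 : 1 ≤ m := by
    have : 0 < 2 ^ a := by positivity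
    omega
  -- for every `y` the average over `z`
  have key : ∀ y : Fin (2 ^ L) → Bool, (1 / 64 : ℝ) * 2 ^ a ≤
      av (fun z => (ED (word (glue L a (2 * j + 1) y z) ++ t)
        (word (glue L a (2 * j + 1) y z ∘ swp L a j) ++ t) : ℝ)) := by
    intro y
    obtain ⟨P, hP⟩ : ∃ P : List Bool, P = word (fun i : Fin (2 ^ a) =>
      y ⟨j * 2 ^ (a + 1) + i.1, by have := i.2; omega⟩) := ⟨_, rfl⟩
    have hPl : P.length = 2 ^ a := by rw [hP]; simp [word]
    have h1 : ∀ z : Fin (2 ^ a) → Bool, (ED P (word z) : ℝ) ≤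
        2 * (ED (word (glue L a (2 * j + 1) y z) ++ t)
        (word (glue L a (2 * j + 1) y z ∘ swp L a j) ++ t) : ℝ) := by
      intro z
      obtain ⟨u, v, hx, hx'⟩ := word_swp ha hj (glue L a (2 * j + 1) y z)
      have f1 : (fun i : Fin (2 ^ a) => glue L a (2 * j + 1) y z ⟨j * 2 ^ (a + 1) + i.1, by
        have := i.2; omega⟩) = fun i : Fin (2 ^ a) =>
          y ⟨j * 2 ^ (a + 1) + i.1, by have := i.2; omega⟩ := by
        funext i
        have hi := i.2
        unfold glue
        rw [if_neg]
        simp only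
        have : (j * 2 ^ (a + 1) + i.1) / 2 ^ a = 2 * j := by
          rw [pow_succ, show j * (2 ^ a * 2) + i.1 = 2 ^ a * (2 * j) + i.1 by ring,
            Nat.mul_add_div (by positivity), Nat.div_eq_of_lt hi, add_zero]
        rw [this]
        omega
      have f2 : (fun i : Fin (2 ^ a) => glue L a (2 * j + 1) y z
          ⟨j * 2 ^ (a + 1) + 2 ^ a + i.1, by have := i.2; omega⟩) = z := by
        funext i
        have hi := i.2
        have e : j * 2 ^ (a + 1) + 2 ^ a + i.1 = 2 ^ a * (2 * j + 1) + i.1 := by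
          rw [pow_succ]; ring
        unfold glue
        simp only
        rw [if_pos]
        · congr 1
          apply Fin.ext
          simp only
          rw [e, Nat.mul_add_mod, Nat.mod_eq_of_lt hi]
        · rw [e, Nat.mul_add_div (by positivity), Nat.div_eq_of_lt hi, add_zero]
      rw [f1, f2, ← hP] at hx hx'
      have h2 := ED_block u P (word z) (v ++ t) (by rw [hPl]; simp [word])
      rw [hx, hx']
      simp only [List.append_assoc] at h2 ⊢
      exact_mod_cast h2
    have h3 := far_ball (2 ^ a) m hm hm1 P hPl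
    have h5 : ∑ z : Fin (2 ^ a) → Bool, (ED P (word z) : ℝ) ≤
        2 * ∑ z : Fin (2 ^ a) → Bool, (ED (word (glue L a (2 * j + 1) y z) ++ t)
        (word (glue L a (2 * j + 1) y z ∘ swp L a j) ++ t) : ℝ) := by
      rw [Finset.mul_sum]
      exact Finset.sum_le_sum (fun z _ => h1 z)
    unfold av
    rw [Fintype.card_fin, le_div_iff₀ (by positivity)]
    have hm' : (2 : ℝ) ^ a = 16 * m := by exact_mod_cast hm
    rw [hm'] 
    linarith
  have h6 := av_glue L a (2 * j + 1) (by omega) hj2
    (fun x => (ED (word x ++ t) (word (x ∘ swp L a j) ++ t) : ℝ))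
  have h7 : (1 / 64 : ℝ) * 2 ^ a ≤ av (fun x : Fin (2 ^ L) → Bool =>
      (ED (word x ++ t) (word (x ∘ swp L a j) ++ t) : ℝ)) := by
    rw [← h6]
    have h8 : (1 / 64 : ℝ) * 2 ^ a * 2 ^ (2 ^ L) ≤ ∑ y : Fin (2 ^ L) → Bool,
        av (fun z => (ED (word (glue L a (2 * j + 1) y z) ++ t)
        (word (glue L a (2 * j + 1) y z ∘ swp L a j) ++ t) : ℝ)) := by
      calc (1 / 64 : ℝ) * 2 ^ a * 2 ^ (2 ^ L)
          = ∑ y : Fin (2 ^ L) → Bool, (1 / 64 : ℝ) * 2 ^ a := by
            rw [Finset.sum_const, Finset.card_univ, Fintype.card_fun, Fintype.card_fin,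
              Fintype.card_bool, nsmul_eq_mul]
            push_cast
            ring
        _ ≤ _ := Finset.sum_le_sum (fun y _ => key y)
    rw [av, Fintype.card_fin, le_div_iff₀ (by positivity)]
    exact h8
  rw [av, Fintype.card_fin, le_div_iff₀ (by positivity)] at h7
  exact h7

end Vale.Agent.P238
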