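import Vale.Agent.P238.LowerAB

/-!
P238: from the Lipschitz constants to the distortion `c1`, and from `2 ^ L` to all lengths `n`.
-/

namespace Vale.Agent.P238

open Finset

namespace Fin238

/-- pad a word of length `m` with zeros -/
def pad (m n : ℕ) (x : Fin m → Bool) : Fin n → Bool :=
  fun i => if h : i.1 < m then x ⟨i.1, h⟩ else false

lemma word_pad {m n : ℕ} (h : m ≤ n) (x : Fin m → Bool) :
    word (pad m n x) = word x ++ List.replicate (n - m) false := by
  unfold word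
  apply List.ext_getElem
  · simp; omega
  · intro i h1 h2
    rw [List.getElem_ofFn, List.getElem_append]
    simp only [List.length_ofFn] at h1 ⊢
    unfold pad
    by_cases hi : i < m
    · simp [hi]
    · simp [hi]

lemma exists_inj (X : Type*) [Fintype X] : ∃ f : X → ell1, Function.Injective f := by
  classical
  refine ⟨fun x => lp.single 1 (0 : ℕ) (((Fintype.equivFin X x : ℕ) : ℝ)), ?_⟩
  intro x y hxy
  have h1 := congrArg (fun v : ell1 => (v : ℕ → ℝ) 0) hxy
  simp only [lp.single_apply_self] at h1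
  have h2 : ((Fintype.equivFin X x : ℕ)) = (Fintype.equivFin X y : ℕ) := by exact_mod_cast h1
  exact (Fintype.equivFin X).injective (Fin.ext h2)

lemma lip_bound {X : Type*} [Finite X] (ρ : X → X → ℝ) (f : X → ell1)
    (hρ : ∀ x y, x ≠ y → 0 < ρ x y) (x y : X) (hxy : x ≠ y) :
    ‖f x - f y‖ ≤ (⨆ p : {p : X × X // p.1 ≠ p.2}, ‖f p.1.1 - f p.1.2‖ / ρ p.1.1 p.1.2) * ρ x y := by
  have h1 : ‖f x - f y‖ / ρ x y
      ≤ ⨆ p : {p : X × X // p.1 ≠ p.2}, ‖f p.1.1 - f p.1.2‖ / ρ p.1.1 p.1.2 :=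
    le_ciSup (f := fun p : {p : X × X // p.1 ≠ p.2} => ‖f p.1.1 - f p.1.2‖ / ρ p.1.1 p.1.2)
      (Set.finite_range _).bddAbove ⟨(x, y), hxy⟩
  rwa [div_le_iff₀ (hρ x y hxy)] at h1

lemma colip_bound {X : Type*} [Finite X] (ρ : X → X → ℝ) (f : X → ell1)
    (hf : Function.Injective f) (x y : X) (hxy : x ≠ y) :
    ρ x y ≤ (⨆ p : {p : X × X // p.1 ≠ p.2}, ρ p.1.1 p.1.2 / ‖f p.1.1 - f p.1.2‖)
      * ‖f x - f y‖ := by
  have h1 : ρ x y / ‖f x - f y‖
      ≤ ⨆ p : {p : X × X // p.1 ≠ p.2}, ρ p.1.1 p.1.2 / ‖f p.1.1 - f p.1.2‖ :=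
    le_ciSup (f := fun p : {p : X × X // p.1 ≠ p.2} => ρ p.1.1 p.1.2 / ‖f p.1.1 - f p.1.2‖)
      (Set.finite_range _).bddAbove ⟨(x, y), hxy⟩
  have h2 : 0 < ‖f x - f y‖ := norm_pos_iff.mpr (sub_ne_zero.mpr (fun h => hxy (hf h)))
  rwa [div_le_iff₀ h2] at h1

/-- the lower bound in terms of `L = log₂ n` -/
lemma distortion_ge : ∃ c : ℝ, 0 < c ∧ ∃ L0 : ℕ, ∀ L ≥ L0, ∀ n : ℕ, 2 ^ L ≤ n →
    c * (L : ℝ) ^ 2 / Real.log L ≤ c1 (Fin n → Bool) (edDist n) := by
  obtain ⟨c, hc, L0, hL0⟩ := lower_AB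
  refine ⟨c, hc, L0, ?_⟩
  intro L hL n hn
  obtain ⟨g, hg⟩ := exists_inj (Fin n → Bool)
  have : Nonempty {f : (Fin n → Bool) → ell1 // Function.Injective f} := ⟨⟨g, hg⟩⟩
  unfold c1
  refine le_ciInf (fun f => ?_)
  obtain ⟨f, hf⟩ := f
  unfold distortion
  have hρ0 : ∀ x y : Fin n → Bool, 0 ≤ edDist n x y := fun x y => Nat.cast_nonneg _
  have hρ : ∀ x y : Fin n → Bool, x ≠ y → 0 < edDist n x y := by
    intro x y hxy
    unfold edDist
    have : ED (word x) (word y) ≠ 0 := by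
      rw [Ne, ED_eq_zero]
      intro h
      exact hxy (List.ofFn_injective h)
    exact_mod_cast Nat.pos_of_ne_zero this
  have hself : ∀ x : Fin n → Bool, edDist n x x = 0 := by
    intro x
    unfold edDist
    have : ED (word x) (word x) = 0 := (ED_eq_zero _ _).mpr rfl
    rw [this]; norm_num
  have hp : ∀ x y : Fin (2 ^ L) → Bool,
      (ED (word x ++ List.replicate (n - 2 ^ L) false)
        (word y ++ List.replicate (n - 2 ^ L) false) : ℝ)
        = edDist n (pad (2 ^ L) n x) (pad (2 ^ L) n y) := by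
    intro x y
    unfold edDist
    rw [word_pad hn, word_pad hn]
  refine hL0 L hL (List.replicate (n - 2 ^ L) false) (fun x => f (pad (2 ^ L) n x)) _ _
    (Real.iSup_nonneg (fun p => div_nonneg (norm_nonneg _) (hρ0 _ _)))
    (Real.iSup_nonneg (fun p => div_nonneg (hρ0 _ _) (norm_nonneg _))) ?_ ?_
  · intro x y
    rw [hp]
    by_cases h : pad (2 ^ L) n x = pad (2 ^ L) n y
    · simp only [h, sub_self, norm_zero, hself, mul_zero, le_refl]
    · exact lip_bound (edDist n) f hρ _ _ h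
  · intro x y
    rw [hp]
    by_cases h : pad (2 ^ L) n x = pad (2 ^ L) n y
    · simp only [h, sub_self, norm_zero, hself, mul_zero, le_refl]
    · exact colip_bound (edDist n) f hf _ _ h

end Fin238

open Fin238 in
theorem main_lower : ∃ c : ℝ, 0 < c ∧ ∃ N : ℕ, ∀ n ≥ N,
    c * Real.log n ^ 2 / Real.log (Real.log n) ≤ c1 (Fin n → Bool) (edDist n) := by
  obtain ⟨c, hc, L0, h⟩ := distortion_ge
  refine ⟨c / 2, by positivity, 2 ^ (L0 + 100), ?_⟩
  intro n hn
  set L := Nat.log 2 n with hL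
  have hn0 : n ≠ 0 := by
    have : 0 < 2 ^ (L0 + 100) := by positivity
    omega
  have h1 : 2 ^ L ≤ n := Nat.pow_log_le_self 2 hn0
  have h2 : n < 2 ^ (L + 1) := Nat.lt_pow_succ_log_self (by norm_num) n
  have h3 : L0 + 100 ≤ L := (Nat.le_log_iff_pow_le (by norm_num) hn0).mpr hn
  refine le_trans ?_ (h L (by omega) n h1)
  have hLr : (100 : ℝ) ≤ L := by exact_mod_cast (by omega : 100 ≤ L)
  have hl2 : (0.69 : ℝ) < Real.log 2 := by have := Real.log_two_gt_d9; linarith
  have hl2' : Real.log 2 < 0.7 := by have := Real.log_two_lt_d9; linarith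
  have hnr : (0 : ℝ) < n := by exact_mod_cast Nat.pos_of_ne_zero hn0
  have hup : Real.log n ≤ L := by
    have h4 : Real.log n ≤ Real.log (2 ^ (L + 1) : ℝ) :=
      Real.log_le_log hnr (by exact_mod_cast h2.le)
    rw [Real.log_pow] at h4
    push_cast at h4
    nlinarith
  have hlo : (L : ℝ) * Real.log 2 ≤ Real.log n := by
    rw [← Real.log_pow]
    exact Real.log_le_log (by positivity) (by exact_mod_cast h1)
  have hlogn : 69 ≤ Real.log n := by nlinarith
  have hloglog : Real.log L ≤ 2 * Real.log (Real.log n) := by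
    have h5 : (L : ℝ) ≤ (Real.log n) ^ 2 := by nlinarith
    have h6 : Real.log L ≤ Real.log ((Real.log n) ^ 2) := Real.log_le_log (by linarith) h5
    rwa [Real.log_pow, Nat.cast_ofNat] at h6
  have hLL : 0 < Real.log L := Real.log_pos (by linarith)
  have hll : 0 < Real.log (Real.log n) := Real.log_pos (by linarith)
  rw [div_le_div_iff₀ hll hLL]
  have h7 : Real.log n ^ 2 ≤ (L : ℝ) ^ 2 := by nlinarith
  calc c / 2 * Real.log n ^ 2 * Real.log L
      ≤ c / 2 * (L : ℝ) ^ 2 * (2 * Real.log (Real.log n)) := by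
        apply mul_le_mul _ hloglog hLL.le (by positivity)
        exact mul_le_mul_of_nonneg_left h7 (by positivity)
    _ = c * (L : ℝ) ^ 2 * Real.log (Real.log n) := by ring

end Vale.Agent.P238
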