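import Vale.Agent.P238.Base
import Vale.Agent.P063.KKL

/-!
# P238 [KKL]: the Kahn-Kalai-Linial inequality from the log-Sobolev library of P063
-/

namespace Vale.Agent.P238

open Finset

namespace Kkl

variable {n : ℕ}

theorem av_eq (F : (Fin n → Bool) → ℝ) : av F = P063.EE (1 / 2) F := by
  unfold av P063.EE
  rw [sum_div]
  refine sum_congr rfl fun x _ => ?_
  have h1 : ∏ i, P063.wt (1 / 2) (x i) = (1 / 2 : ℝ) ^ n := by
    have : ∀ i, P063.wt (1 / 2) (x i) = 1 / 2 := fun i => by
      unfold P063.wt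
      split_ifs <;> norm_num
    rw [prod_congr rfl fun i _ => this i, prod_const, card_univ, Fintype.card_fin]
  rw [h1, Fintype.card_fin]
  rw [one_div, inv_pow]
  field_simp

theorem half_pos : (0 : ℝ) < 1 / 2 := by norm_num
theorem half_lt : (1 / 2 : ℝ) < 1 := by norm_num

/-- the `±1` version -/
def pm (g : (Fin n → Bool) → ℝ) (x : Fin n → Bool) : ℝ := 2 * g x - 1

theorem pm_val (g : (Fin n → Bool) → ℝ) (hg : ∀ x, g x = 0 ∨ g x = 1) (x : Fin n → Bool) :
    pm g x = 1 ∨ pm g x = -1 := by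
  unfold pm
  rcases hg x with h | h
  · right; rw [h]; norm_num
  · left; rw [h]; norm_num

theorem inf_eq (g : (Fin n → Bool) → ℝ) (hg : ∀ x, g x = 0 ∨ g x = 1) (i : Fin n) :
    inf g i = ∑ S : Finset (Fin n), if i ∈ S then (P063.fc (1 / 2) (pm g) S) ^ 2 else 0 := by
  rw [← P063.influence_one half_pos half_lt]
  unfold inf
  rw [av_eq, ← P063.EE_mul_left]
  refine P063.EE_congr _ fun x => ?_
  have key : ∀ a b : ℝ, (a = 0 ∨ a = 1) → (b = 0 ∨ b = 1) →
      |a - b| = 1 / 2 * (1 - 1 / 2) * ((2 * a - 1) - (2 * b - 1)) ^ 2 := by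
    rintro a b (rfl | rfl) (rfl | rfl) <;> norm_num
  unfold flip pm
  cases hx : x i
  · have e1 : Function.update x i false = x := by
      rw [← hx]; exact Function.update_eq_self i x
    rw [e1, Bool.not_false, abs_sub_comm]
    exact key _ _ (hg _) (hg _)
  · have e1 : Function.update x i true = x := by
      rw [← hx]; exact Function.update_eq_self i x
    rw [e1, Bool.not_true]
    exact key _ _ (hg _) (hg _)

theorem fc_empty (f : (Fin n → Bool) → ℝ) :
    P063.fc (1 / 2) f ∅ = P063.EE (1 / 2) f := by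
  unfold P063.fc P063.chi
  simp

theorem vr_eq (g : (Fin n → Bool) → ℝ) :
    4 * vr g = ∑ S : Finset (Fin n), if S = ∅ then 0 else (P063.fc (1 / 2) (pm g) S) ^ 2 := by
  have h1 := P063.parseval half_pos half_lt (pm g)
  have h2 : ∑ S : Finset (Fin n), (P063.fc (1 / 2) (pm g) S) ^ 2 =
      (P063.EE (1 / 2) (pm g)) ^ 2 +
      ∑ S : Finset (Fin n), if S = ∅ then 0 else (P063.fc (1 / 2) (pm g) S) ^ 2 := by
    rw [← fc_empty]
    have : ∀ S : Finset (Fin n), (P063.fc (1 / 2) (pm g) S) ^ 2 =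
        (if S = ∅ then (P063.fc (1 / 2) (pm g) ∅) ^ 2 else 0) +
        (if S = ∅ then 0 else (P063.fc (1 / 2) (pm g) S) ^ 2) := by
      intro S
      split_ifs with h
      · rw [h, add_zero]
      · rw [zero_add]
    rw [sum_congr rfl fun S _ => this S, sum_add_distrib]
    congr 1
    rw [sum_ite_eq' univ ∅ (fun _ => (P063.fc (1 / 2) (pm g) ∅) ^ 2)]
    simp
  have h3 : P063.EE (1 / 2) (pm g) = 2 * av g - 1 := by
    have : pm g = fun x => 2 * g x - 1 := rfl
    rw [this, P063.EE_sub, P063.EE_mul_left, P063.EE_const, av_eq]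
  have h4 : P063.EE (1 / 2) (fun x => pm g x ^ 2) = 4 * av (fun x => g x ^ 2) - 4 * av g + 1 := by
    have : (fun x => pm g x ^ 2) = fun x => 4 * g x ^ 2 - (4 * g x - 1) := by
      funext x; unfold pm; ring
    rw [this, P063.EE_sub, P063.EE_sub, P063.EE_mul_left, P063.EE_mul_left, P063.EE_const, av_eq,
      av_eq]
    ring
  rw [h4, h2, h3] at h1
  unfold vr
  linarith

/-- the pointwise inequality, summed over the directions -/
theorem pointwise (g : (Fin n → Bool) → ℝ) (hg : ∀ x, g x = 0 ∨ g x = 1) {M : ℝ} (hM0 : 0 < M)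
    (hM1 : M < 1) (hM : ∀ i, inf g i ≤ M) {t : ℝ} (ht0 : 0 < t) (ht1 : t ≤ 1) :
    (1 / 2 * Real.log (1 / M)) * (∑ S : Finset (Fin n), (S.card : ℝ) *
        (t ^ S.card * (P063.fc (1 / 2) (pm g) S) ^ 2)) ≤
      P063.cc (1 / 2) * (∑ S : Finset (Fin n), (S.card : ℝ) *
        (((S.card : ℝ) - 1) * t ^ S.card * (P063.fc (1 / 2) (pm g) S) ^ 2)) +
      2 * ∑ i, inf g i := by
  set q : Finset (Fin n) → ℝ := fun S => (P063.fc (1 / 2) (pm g) S) ^ 2 with hq
  set l : ℝ := Real.exp (-(1 / 4) * Real.log (1 / M)) with hl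
  have hLM : 0 < Real.log (1 / M) := Real.log_pos (by rw [one_div]; exact one_lt_inv_iff₀.2 ⟨hM0, hM1⟩)
  have hl0 : 0 < l := Real.exp_pos _
  have hl1 : l ≤ 1 := by
    rw [hl, Real.exp_le_one_iff]
    nlinarith
  have hlog : 2 * Real.log (1 / l) = 1 / 2 * Real.log (1 / M) := by
    rw [one_div l, Real.log_inv, hl, Real.log_exp]
    ring
  have hs : Real.sqrt t ^ 2 = t := Real.sq_sqrt ht0.le
  have hs1 : Real.sqrt t ≤ 1 := by
    rw [← Real.sqrt_one]; exact Real.sqrt_le_sqrt ht1
  have hsqrt : Real.sqrt (1 / 2 * (1 - 1 / 2)) = 1 / 2 := by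
    rw [show (1 / 2 * (1 - 1 / 2) : ℝ) = (1 / 2) ^ 2 by norm_num]
    exact Real.sqrt_sq (by norm_num)
  have hi : ∀ i : Fin n, (1 / 2 * Real.log (1 / M)) *
      (∑ S : Finset (Fin n), if i ∈ S then t ^ S.card * q S else 0) ≤
      P063.cc (1 / 2) * (∑ S : Finset (Fin n),
        if i ∈ S then ((S.card : ℝ) - 1) * t ^ S.card * q S else 0) + 2 * inf g i := by
    intro i
    have h1 := P063.deriv_lemma half_pos half_lt (pm g) (pm_val g hg) i (Real.sqrt_nonneg t) hs1 hl0
    rw [hs, hlog, hsqrt, ← inf_eq g hg i] at h1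
    set W := ∑ S : Finset (Fin n), if i ∈ S then t ^ S.card * (P063.fc (1 / 2) (pm g) S) ^ 2 else 0
      with hW
    have hW0 : 0 ≤ W := sum_nonneg fun S _ => by
      split_ifs
      · positivity
      · exact le_rfl
    have hWM : W ≤ M := by
      refine le_trans ?_ (hM i)
      rw [inf_eq g hg i]
      refine sum_le_sum fun S _ => ?_
      split_ifs
      · exact mul_le_of_le_one_left (sq_nonneg _) (pow_le_one₀ ht0.le ht1)
      · exact le_rfl
    have hphi : W * Real.log (1 / M) ≤ P063.phi W := by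
      unfold P063.phi Real.negMulLog
      rcases hW0.eq_or_lt with h0 | h0
      · rw [← h0]; simp
      · have h3 : Real.log W ≤ Real.log M := Real.log_le_log h0 hWM
        rw [one_div, Real.log_inv]
        nlinarith
    have hinf0 : 0 ≤ inf g i := by
      rw [inf_eq g hg i]
      exact sum_nonneg fun S _ => by
        split_ifs
        · positivity
        · exact le_rfl
    have h4 : 2 * l * (inf g i / (2 * (1 / 2))) ≤ 2 * inf g i := by
      have : 2 * l * (inf g i / (2 * (1 / 2))) = 2 * (l * inf g i) := by ring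
      rw [this]
      have := mul_le_of_le_one_left hinf0 hl1
      linarith
    have h6 : (1 / 2 * Real.log (1 / M)) * W = W * Real.log (1 / M) - 1 / 2 * Real.log (1 / M) * W := by
      ring
    rw [h6]
    linarith
  have hsum := sum_le_sum fun i (_ : i ∈ (univ : Finset (Fin n))) => hi i
  rw [← mul_sum, sum_add_distrib, ← mul_sum, ← mul_sum, P063.sum_ite_mem_card,
    P063.sum_ite_mem_card] at hsum
  exact hsum

theorem sum_inf (g : (Fin n → Bool) → ℝ) (hg : ∀ x, g x = 0 ∨ g x = 1) :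
    ∑ i, inf g i = ∑ S : Finset (Fin n), (S.card : ℝ) * (P063.fc (1 / 2) (pm g) S) ^ 2 := by
  rw [← P063.sum_ite_mem_card]
  exact sum_congr rfl fun i _ => inf_eq g hg i

theorem main (g : (Fin n → Bool) → ℝ) (hg : ∀ x, g x = 0 ∨ g x = 1) {M : ℝ} (hM0 : 0 < M)
    (hM1 : M < 1) (hM : ∀ i, inf g i ≤ M) :
    vr g * Real.log (1 / M) ≤ (16 * P063.cc (1 / 2) + 32) * ∑ i, inf g i := by
  set c := P063.cc (1 / 2) with hc
  have hc0 : 20 ≤ c := by
    rw [hc]; unfold P063.cc
    have : 0 ≤ Real.log (1 / min (1 / 2 : ℝ) (1 - 1 / 2)) := by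
      apply Real.log_nonneg
      norm_num
    linarith
  set q : Finset (Fin n) → ℝ := fun S => (P063.fc (1 / 2) (pm g) S) ^ 2 with hq
  have hq0 : ∀ S, 0 ≤ q S := fun S => sq_nonneg _
  set I := ∑ i, inf g i with hI
  have hIq : I = ∑ S : Finset (Fin n), (S.card : ℝ) * q S := sum_inf g hg
  have hI0 : 0 ≤ I := by
    rw [hIq]; exact sum_nonneg fun S _ => mul_nonneg (Nat.cast_nonneg _) (hq0 S)
  set V := ∑ S : Finset (Fin n), if S = ∅ then 0 else q S with hV
  have hVv : 4 * vr g = V := vr_eq g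
  have hV0 : 0 ≤ V := sum_nonneg fun S _ => by
    split_ifs
    · exact le_rfl
    · exact hq0 S
  have hVI : V ≤ I := by
    rw [hIq]
    refine sum_le_sum fun S _ => ?_
    split_ifs with h
    · exact mul_nonneg (Nat.cast_nonneg _) (hq0 S)
    · have : (1 : ℝ) ≤ S.card := by exact_mod_cast card_pos.2 (nonempty_iff_ne_empty.2 h)
      nlinarith [hq0 S]
  have hLM : 0 < Real.log (1 / M) := Real.log_pos (by rw [one_div]; exact one_lt_inv_iff₀.2 ⟨hM0, hM1⟩)
  set D := 1 / 2 * Real.log (1 / M) with hD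
  have hD0 : 0 < D := by rw [hD]; positivity
  have hgoal : V * D ≤ (32 * c + 64) * I → vr g * Real.log (1 / M) ≤ (16 * c + 32) * I := by
    intro h
    have : vr g * Real.log (1 / M) = V * D / 2 := by rw [← hVv, hD]; ring
    rw [this]
    linarith
  apply hgoal
  by_cases hDc : D ≤ 16 * c
  · calc V * D ≤ I * (16 * c) := mul_le_mul hVI hDc hD0.le hI0
      _ ≤ (32 * c + 64) * I := by nlinarith
  · push Not at hDc
    set k := D / (8 * c) with hk
    have hk2 : 2 < k := by
      rw [hk, lt_div_iff₀ (by positivity)]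
      linarith
    have hck : c * k = D / 8 := by rw [hk]; field_simp
    have hτ1 : 1 - 1 / k < 1 := by
      have : 0 < 1 / k := by positivity
      linarith
    have hk1 : 1 / k ≤ 1 / 2 := one_div_le_one_div_of_le (by norm_num) hk2.le
    have hint := P063.kkl_integrated q hq0 (t0 := 1 / 8) (τ := 1 - 1 / k) (D := D) (c := c)
      (b := 2 * I) (by norm_num) (by linarith) hτ1 hD0.le (by linarith) (by positivity)
      (fun t h1 h2 => pointwise g hg hM0 hM1 hM (by linarith) (by linarith))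
    -- low degrees
    have hlow : 1 / 2 * (V - 2 * I / k) ≤
        ∑ S : Finset (Fin n), if S = ∅ then 0 else q S * (1 - 1 / k) ^ S.card := by
      have h1 : ∀ S : Finset (Fin n), (if S = ∅ then 0 else q S) * (1 / 2) -
          (S.card : ℝ) * q S / k ≤ if S = ∅ then 0 else q S * (1 - 1 / k) ^ S.card := by
        intro S
        split_ifs with h
        · have : 0 ≤ (S.card : ℝ) * q S / k := by
            have := hq0 S; positivity
          linarith
        · have hb : 1 - (S.card : ℝ) / k ≤ (1 - 1 / k) ^ S.card := by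
            have := one_add_mul_le_pow (a := -(1 / k)) (by linarith) S.card
            calc 1 - (S.card : ℝ) / k = 1 + (S.card : ℝ) * -(1 / k) := by ring
              _ ≤ (1 + -(1 / k)) ^ S.card := this
              _ = _ := by ring_nf
          have := mul_le_mul_of_nonneg_left hb (hq0 S)
          have h3 : q S * (1 - (S.card : ℝ) / k) = q S - (S.card : ℝ) * q S / k := by ring
          have := hq0 S
          linarith
      have h2 := sum_le_sum fun S (_ : S ∈ (univ : Finset (Finset (Fin n)))) => h1 S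
      rw [sum_sub_distrib, ← sum_mul, ← sum_div, ← hIq] at h2
      calc 1 / 2 * (V - 2 * I / k) = V * (1 / 2) - I / k := by ring
        _ ≤ _ := h2
    have h3 := mul_le_mul_of_nonneg_left hlow hD0.le
    have h4 := h3.trans hint
    have h5 : (1 : ℝ) - (1 - 1 / k) = 1 / k := by ring
    rw [h5] at h4
    have h6 : c * V / (1 / k) = (c * k) * V := by field_simp
    rw [h6, hck] at h4
    have h7 : D * (2 * I / k) = 16 * c * I := by rw [hk]; field_simp; ring
    have h8 : D * (1 / 2 * (V - 2 * I / k)) = D * V / 2 - 8 * c * I := by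
      have : D * (1 / 2 * (V - 2 * I / k)) = D * V / 2 - D * (2 * I / k) / 2 := by ring
      rw [this, h7]; ring
    rw [h8] at h4
    linarith

end Kkl

/-- [KKL] -/
theorem kkl : ∃ C : ℝ, 0 < C ∧ ∀ (n : ℕ) (g : (Fin n → Bool) → ℝ), (∀ x, g x = 0 ∨ g x = 1) →
    ∀ M : ℝ, 0 < M → M < 1 → (∀ i, inf g i ≤ M) →
      vr g * Real.log (1 / M) ≤ C * ∑ i, inf g i := by
  refine ⟨16 * P063.cc (1 / 2) + 32, ?_, fun n g hg M hM0 hM1 hM => Kkl.main g hg hM0 hM1 hM⟩
  have : 0 ≤ Real.log (1 / min (1 / 2 : ℝ) (1 - 1 / 2)) := by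
    apply Real.log_nonneg
    norm_num
  unfold P063.cc
  linarith

end Vale.Agent.P238
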