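import Vale.Agent.P238.Base

/-!
P238, [KR]: the Krauthgamer-Rabani inequality.
-/

namespace Vale.Agent.P238

open Finset

namespace Kr

section

variable {ι : Type*} [Fintype ι] [DecidableEq ι]

lemma av_add (F G : (ι → Bool) → ℝ) : av (fun x => F x + G x) = av F + av G := by
  unfold av
  rw [Finset.sum_add_distrib, add_div]

lemma av_mono {F G : (ι → Bool) → ℝ} (h : ∀ x, F x ≤ G x) : av F ≤ av G := by
  unfold av
  exact div_le_div_of_nonneg_right (Finset.sum_le_sum fun x _ => h x) (by positivity)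

lemma av_nonneg {F : (ι → Bool) → ℝ} (h : ∀ x, 0 ≤ F x) : 0 ≤ av F := by
  unfold av
  exact div_nonneg (Finset.sum_nonneg fun x _ => h x) (by positivity)

lemma av_comp (e : Equiv.Perm (ι → Bool)) (F : (ι → Bool) → ℝ) : av (fun x => F (e x)) = av F := by
  unfold av
  rw [Equiv.sum_comp e F]

lemma av_comp_perm (σ : Equiv.Perm ι) (F : (ι → Bool) → ℝ) : av (fun x => F (x ∘ σ)) = av F := by
  have := av_comp (Equiv.arrowCongr σ.symm (Equiv.refl Bool)) F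
  rw [← this]
  rfl

omit [Fintype ι] in
lemma flip_flip (i : ι) (x : ι → Bool) : flip i (flip i x) = x := by
  funext k
  unfold flip
  by_cases h : k = i
  · subst h; simp
  · simp [Function.update_of_ne h]

lemma av_comp_flip (i : ι) (F : (ι → Bool) → ℝ) : av (fun x => F (flip i x)) = av F :=
  av_comp (Function.Involutive.toPerm (flip i) (flip_flip i)) F

omit [Fintype ι] in
lemma flip_comp (σ : Equiv.Perm ι) (i : ι) (y : ι → Bool) :
    flip i (y ∘ σ) = (flip (σ i) y) ∘ σ := by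
  funext k
  unfold flip
  by_cases h : k = i
  · subst h; simp
  · have h2 : σ k ≠ σ i := fun h3 => h (σ.injective h3)
    simp [Function.update_of_ne h, Function.update_of_ne h2]

lemma inf_nonneg (g : (ι → Bool) → ℝ) (i : ι) : 0 ≤ inf g i := av_nonneg fun _ => abs_nonneg _

lemma inf_step (g : (ι → Bool) → ℝ) (σ : Equiv.Perm ι) (i : ι) :
    inf g i ≤ inf g (σ i) + 2 * av (fun x => |g x - g (x ∘ σ)|) := by
  have h1 : inf g i = av (fun y => |g (y ∘ σ) - g ((flip (σ i) y) ∘ σ)|) := by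
    unfold inf
    rw [← av_comp_perm σ]
    simp only [flip_comp]
  have h2 : av (fun x => |g (flip (σ i) x) - g ((flip (σ i) x) ∘ σ)|) =
      av (fun x => |g x - g (x ∘ σ)|) :=
    av_comp_flip (σ i) (fun x => |g x - g (x ∘ σ)|)
  have h3 : av (fun y => |g (y ∘ σ) - g ((flip (σ i) y) ∘ σ)|) ≤
      av (fun y => |g y - g (y ∘ σ)| + |g y - g (flip (σ i) y)| +
        |g (flip (σ i) y) - g ((flip (σ i) y) ∘ σ)|) := by
    refine av_mono fun y => ?_
    have e : g (y ∘ σ) - g ((flip (σ i) y) ∘ σ) = -(g y - g (y ∘ σ)) + (g y - g (flip (σ i) y)) +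
        (g (flip (σ i) y) - g ((flip (σ i) y) ∘ σ)) := by ring
    rw [e]
    refine (abs_add_le _ _).trans ?_
    refine add_le_add ((abs_add_le _ _).trans ?_) le_rfl
    rw [abs_neg]
  rw [av_add, av_add, h2] at h3
  rw [h1]
  have h4 : av (fun y => |g y - g (flip (σ i) y)|) = inf g (σ i) := rfl
  linarith

lemma vr_le_one (g : (ι → Bool) → ℝ) (hg : ∀ x, g x = 0 ∨ g x = 1) : vr g ≤ 1 := by
  unfold vr
  have h1 : av (fun x => g x ^ 2) ≤ av (fun _ : ι → Bool => (1 : ℝ)) := by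
    refine av_mono fun x => ?_
    rcases hg x with h | h <;> rw [h] <;> norm_num
  have h2 : av (fun _ : ι → Bool => (1 : ℝ)) = 1 := by
    unfold av
    simp
  have := sq_nonneg (av g)
  linarith

end

/-- the points of the orbit -/
def pt (a : ℕ) (i : Fin (2 ^ a)) (k : ℕ) : Fin (2 ^ a) :=
  ⟨(i.1 + k) % 2 ^ a, Nat.mod_lt _ (by positivity)⟩

lemma rot_pt (a : ℕ) (i : Fin (2 ^ a)) (k : ℕ) : rot a a 0 1 (pt a i k) = pt a i (k + 1) := by
  apply Fin.ext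
  rw [rot_val 0 1 le_rfl, rotN, if_pos (Nat.div_eq_of_lt (pt a i k).2)]
  simp only [pt, zero_mul, zero_add]
  rw [Nat.mod_mod, Nat.mod_add_mod, add_assoc]

lemma pt_zero (a : ℕ) (i : Fin (2 ^ a)) : pt a i 0 = i := by
  apply Fin.ext
  simp [pt, Nat.mod_eq_of_lt i.2]

lemma pt_inj (a : ℕ) (i : Fin (2 ^ a)) (K : ℕ) (hK : K ≤ 2 ^ a) :
    Set.InjOn (pt a i) (Finset.range K : Set ℕ) := by
  intro k hk l hl h
  simp only [Finset.coe_range, Set.mem_Iio] at hk hl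
  have h1 : (i.1 + k) % 2 ^ a = (i.1 + l) % 2 ^ a := by
    have := congrArg Fin.val h
    simpa [pt] using this
  have h2 : k ≡ l [MOD 2 ^ a] := Nat.ModEq.add_left_cancel' i.1 h1
  exact Nat.ModEq.eq_of_lt_of_lt h2 (hk.trans_le hK) (hl.trans_le hK)

lemma orbit (a : ℕ) (g : (Fin (2 ^ a) → Bool) → ℝ) (i : Fin (2 ^ a)) (k : ℕ) :
    inf g i ≤ inf g (pt a i k) + 2 * k * av (fun x => |g x - g (x ∘ rot a a 0 1)|) := by
  induction k with
  | zero => simp [pt_zero]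
  | succ k ih =>
    have h := inf_step g (rot a a 0 1) (pt a i k)
    rw [rot_pt] at h
    push_cast
    linarith

lemma many (a : ℕ) (g : (Fin (2 ^ a) → Bool) → ℝ) (i : Fin (2 ^ a)) (K : ℕ) (hK : K ≤ 2 ^ a) :
    K * inf g i ≤ ∑ j, inf g j + K ^ 2 * av (fun x => |g x - g (x ∘ rot a a 0 1)|) := by
  set ρ := av (fun x => |g x - g (x ∘ rot a a 0 1)|) with hρ
  have hρ0 : 0 ≤ ρ := av_nonneg fun _ => abs_nonneg _
  have h1 : ∑ k ∈ Finset.range K, inf g (pt a i k) ≤ ∑ j, inf g j := by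
    rw [← Finset.sum_image (s := Finset.range K) (g := pt a i) (f := fun j => inf g j)
      (pt_inj a i K hK)]
    exact Finset.sum_le_sum_of_subset_of_nonneg (Finset.subset_univ _)
      fun j _ _ => inf_nonneg g j
  have h2 : ∀ k ∈ Finset.range K, inf g i ≤ inf g (pt a i k) + 2 * k * ρ := fun k _ =>
    orbit a g i k
  have h3 := Finset.sum_le_sum h2
  rw [Finset.sum_const, Finset.card_range, nsmul_eq_mul, Finset.sum_add_distrib] at h3
  have h4 : ∑ k ∈ Finset.range K, 2 * (k : ℝ) * ρ ≤ K ^ 2 * ρ := by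
    rw [← Finset.sum_mul]
    refine mul_le_mul_of_nonneg_right ?_ hρ0
    have : ∀ n : ℕ, ∑ k ∈ Finset.range n, 2 * (k : ℝ) ≤ (n : ℝ) ^ 2 := by
      intro n
      induction n with
      | zero => simp
      | succ n ih =>
        rw [Finset.sum_range_succ]
        push_cast
        nlinarith
    exact this K
  linarith

lemma a_le (a : ℕ) : (a : ℝ) ≤ 8 * (2 : ℝ) ^ ((a : ℝ) / 4) := by
  have h1 := Real.add_one_le_exp (Real.log 2 * ((a : ℝ) / 4))
  rw [Real.exp_mul, Real.exp_log (by norm_num)] at h1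
  have h2 : (0.69 : ℝ) < Real.log 2 := by
    have := Real.log_two_gt_d9
    linarith
  have h3 : 0 ≤ (a : ℝ) := Nat.cast_nonneg a
  nlinarith

lemma case_one (A v C1 I B : ℝ) (hA : 1 ≤ A) (hC : 0 < C1) (hI : 0 ≤ I) (hB : 0 ≤ B)
    (h1 : v * (A / 4 * Real.log 2) ≤ C1 * I) : A * v ≤ (8 * C1 + 32) * (I + B) := by
  have hlog2 : (0.69 : ℝ) < Real.log 2 := by
    have := Real.log_two_gt_d9
    linarith
  have h0 : 0 ≤ C1 * I := by positivity
  have h3 : A * v ≤ 8 * (C1 * I) := by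
    by_cases hv : 0 ≤ v
    · have h4 : 0 ≤ A * v := by positivity
      nlinarith
    · push Not at hv
      have : A * v ≤ 0 := mul_nonpos_of_nonneg_of_nonpos (by linarith) hv.le
      linarith
  have h5 : 0 ≤ (8 * C1 + 32) * B := by positivity
  nlinarith

lemma case_two (A v C1 I B K M ρ f P : ℝ) (hA : 1 ≤ A) (hC : 0 < C1) (hI : 0 ≤ I) (hB : 0 ≤ B)
    (hv : v ≤ 1) (hK0 : 0 < K) (hK2 : K ^ 2 * ρ ≤ B) (hKM : P / 2 ≤ K * M) (hM : M ≤ f)
    (h1 : K * f ≤ I + K ^ 2 * ρ) (h9 : A ≤ 8 * P) : A * v ≤ (8 * C1 + 32) * (I + B) := by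
  have h6 : K * M ≤ K * f := mul_le_mul_of_nonneg_left hM hK0.le
  have h8 : P / 2 ≤ I + B := by linarith
  have h10 : A * v ≤ A := by nlinarith
  have h11 : 0 ≤ I + B := by positivity
  have h12 : 0 ≤ C1 * (I + B) := by positivity
  nlinarith

lemma K_sq (a : ℕ) : ((2 ^ (a / 2) : ℕ) : ℝ) ^ 2 ≤ (2 : ℝ) ^ a := by
  push_cast
  rw [← pow_mul]
  exact pow_le_pow_right₀ (by norm_num) (Nat.div_mul_le_self a 2)

lemma K_low (a : ℕ) : (2 : ℝ) ^ ((a : ℝ) / 4) / 2 ≤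
    ((2 ^ (a / 2) : ℕ) : ℝ) * (2 : ℝ) ^ (-((a : ℝ) / 4)) := by
  have hM0 : 0 < (2 : ℝ) ^ (-((a : ℝ) / 4)) := Real.rpow_pos_of_pos (by norm_num) _
  have h2 : (2 : ℝ) ^ (((a : ℝ) - 1) / 2) ≤ ((2 ^ (a / 2) : ℕ) : ℝ) := by
    push_cast
    rw [← Real.rpow_natCast 2 (a / 2)]
    refine Real.rpow_le_rpow_of_exponent_le (by norm_num) ?_
    have h3 : a ≤ 2 * (a / 2) + 1 := by omega
    have h4 : (a : ℝ) ≤ 2 * ((a / 2 : ℕ) : ℝ) + 1 := by exact_mod_cast h3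
    linarith
  have h5 : (2 : ℝ) ^ ((a : ℝ) / 4) / 2 ≤
      (2 : ℝ) ^ (((a : ℝ) - 1) / 2) * (2 : ℝ) ^ (-((a : ℝ) / 4)) := by
    have e1 : (2 : ℝ) ^ ((a : ℝ) / 4) / 2 = (2 : ℝ) ^ ((a : ℝ) / 4 - 1) := by
      rw [Real.rpow_sub (by norm_num), Real.rpow_one]
    rw [e1, ← Real.rpow_add (by norm_num)]
    refine Real.rpow_le_rpow_of_exponent_le (by norm_num) ?_
    linarith
  exact h5.trans (mul_le_mul_of_nonneg_right h2 hM0.le)

lemma log_M (a : ℕ) : Real.log (1 / (2 : ℝ) ^ (-((a : ℝ) / 4))) = (a : ℝ) / 4 * Real.log 2 := by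
  rw [one_div, Real.log_inv, Real.log_rpow (by norm_num)]
  ring

/-- the statement of the KKL inequality `kkl` -/
def KKL : Prop := ∃ C : ℝ, 0 < C ∧ ∀ (n : ℕ) (g : (Fin n → Bool) → ℝ),
    (∀ x, g x = 0 ∨ g x = 1) →
    ∀ M : ℝ, 0 < M → M < 1 → (∀ i, inf g i ≤ M) →
      vr g * Real.log (1 / M) ≤ C * ∑ i, inf g i

theorem kr_of_kkl (kkl : KKL) : ∃ C : ℝ, 0 < C ∧ ∀ (a : ℕ), 1 ≤ a → ∀ (g : (Fin (2 ^ a) → Bool) → ℝ),
    (∀ x, g x = 0 ∨ g x = 1) →
      (a : ℝ) * vr g ≤ C * (∑ i, inf g i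
        + 2 ^ a * av (fun x => |g x - g (x ∘ rot a a 0 1)|)) := by
  obtain ⟨C1, hC1, hk⟩ := kkl
  refine ⟨8 * C1 + 32, by positivity, ?_⟩
  intro a ha g hg
  have hρ0 : 0 ≤ av (fun x => |g x - g (x ∘ rot a a 0 1)|) := av_nonneg fun _ => abs_nonneg _
  have hI0 : 0 ≤ ∑ i, inf g i := Finset.sum_nonneg fun i _ => inf_nonneg g i
  have ha' : (1 : ℝ) ≤ a := by exact_mod_cast ha
  have hB : 0 ≤ (2 : ℝ) ^ a * av (fun x => |g x - g (x ∘ rot a a 0 1)|) := by positivity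
  have hM0 : 0 < (2 : ℝ) ^ (-((a : ℝ) / 4)) := Real.rpow_pos_of_pos (by norm_num) _
  have hM1 : (2 : ℝ) ^ (-((a : ℝ) / 4)) < 1 :=
    Real.rpow_lt_one_of_one_lt_of_neg (by norm_num) (by linarith)
  by_cases hall : ∀ i, inf g i ≤ (2 : ℝ) ^ (-((a : ℝ) / 4))
  · have h1 := hk (2 ^ a) g hg _ hM0 hM1 hall
    rw [log_M] at h1
    exact case_one _ _ _ _ _ ha' hC1 hI0 hB h1
  · push Not at hall
    obtain ⟨i, hi⟩ := hall
    have hK : 2 ^ (a / 2) ≤ 2 ^ a := Nat.pow_le_pow_right (by norm_num) (Nat.div_le_self a 2)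
    have h1 := many a g i (2 ^ (a / 2)) hK
    refine case_two _ _ _ _ _ _ _ _ _ _ ha' hC1 hI0 hB (vr_le_one g hg) ?_
      (mul_le_mul_of_nonneg_right (K_sq a) hρ0) (K_low a) hi.le h1 (a_le a)
    positivity

end Kr

end Vale.Agent.P238
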