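import Vale.Agent.P238.Kkl
import Vale.Agent.P238.KrOf

/-!
P238, [KR]: the Krauthgamer-Rabani inequality.
-/

namespace Vale.Agent.P238

open Finset

theorem kr : ∃ C : ℝ, 0 < C ∧ ∀ (a : ℕ), 1 ≤ a → ∀ (g : (Fin (2 ^ a) → Bool) → ℝ),
    (∀ x, g x = 0 ∨ g x = 1) →
      (a : ℝ) * vr g ≤ C * (∑ i, inf g i
        + 2 ^ a * av (fun x => |g x - g (x ∘ rot a a 0 1)|)) :=
  Kr.kr_of_kkl kkl

end Vale.Agent.P238
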