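import Vale.Agent.P238.MainBool
import Vale.Agent.P238.Cut
import Vale.Agent.P238.EdUp
import Vale.Agent.P238.Far

/-!
P238: lower bound for the product of the Lipschitz constants of an embedding and of its inverse.
-/

namespace Vale.Agent.P238

open Finset

namespace AB

variable {L : ℕ}

lemma av_mul (F : (Fin (2 ^ L) → Bool) → ℝ) : av F * 2 ^ (2 ^ L) = ∑ x, F x := by
  unfold av
  rw [Fintype.card_fin]
  field_simp

/-- index type for the near pairs -/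
abbrev Mu (L : ℕ) : Type := (Σ _ : ℕ, ℕ) ⊕ (Fin (2 ^ L) ⊕ ℕ)

/-- the near maps -/
def nmap (L a0 κ : ℕ) : Mu L → (Fin (2 ^ L) → Bool) → (Fin (2 ^ L) → Bool)
  | Sum.inl p => fun x => x ∘ rot L (p.1 + κ) p.2 (2 ^ p.1)
  | Sum.inr (Sum.inl i) => fun x => flip i x
  | Sum.inr (Sum.inr j) => fun x => x ∘ rot L a0 j 1

/-- the weights of the near maps -/
noncomputable def nwt (L a0 κ : ℕ) (C : ℝ) : Mu L → ℝ
  | Sum.inl _ => 2 * (a0 : ℝ)
  | Sum.inr (Sum.inl _) => C * κ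
  | Sum.inr (Sum.inr _) => C * κ * 2 ^ a0

/-- the index set of the near pairs -/
def nset (L a0 a1 κ : ℕ) : Finset (Mu L) :=
  ((Ico a0 a1).sigma (fun a => range (2 ^ (L - (a + κ))))).disjSum
    ((Finset.univ : Finset (Fin (2 ^ L))).disjSum (range (2 ^ (L - a0))))

lemma sum_nset (L a0 a1 κ : ℕ) (φ : Mu L → ℝ) :
    ∑ p ∈ nset L a0 a1 κ, φ p
      = (∑ a ∈ Ico a0 a1, ∑ k ∈ range (2 ^ (L - (a + κ))), φ (Sum.inl ⟨a, k⟩))
        + (∑ i, φ (Sum.inr (Sum.inl i)) + ∑ j ∈ range (2 ^ (L - a0)), φ (Sum.inr (Sum.inr j))) := by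
  unfold nset
  rw [Finset.sum_disjSum, Finset.sum_disjSum, Finset.sum_sigma]

/-- the main inequality for `ℓ₁`-valued maps -/
theorem main_l1 : ∃ C : ℝ, 0 < C ∧ ∀ (L a0 a1 κ : ℕ), 1 ≤ a0 → 1 ≤ κ → a0 ≤ a1 →
    a1 + κ ≤ L + 1 → a0 ≤ L → ∀ F : (Fin (2 ^ L) → Bool) → ell1,
      ∑ a ∈ Ico a0 a1, ∑ j ∈ range (2 ^ (L - (a + 1))), (a0 : ℝ) * ∑ x, ‖F x - F (x ∘ swp L a j)‖
        ≤ (∑ a ∈ Ico a0 a1, ∑ k ∈ range (2 ^ (L - (a + κ))), (2 * (a0 : ℝ)) *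
            ∑ x, ‖F x - F (x ∘ rot L (a + κ) k (2 ^ a))‖)
          + (∑ i, (C * κ) * ∑ x, ‖F x - F (flip i x)‖
            + ∑ j ∈ range (2 ^ (L - a0)), (C * κ * 2 ^ a0) * ∑ x, ‖F x - F (x ∘ rot L a0 j 1)‖) := by
  obtain ⟨C, hC, hM⟩ := main_bool
  refine ⟨C, hC, ?_⟩
  intro L a0 a1 κ ha0 hκ h01 h1 haL F
  have key := cut_to_l1 (X := Fin (2 ^ L) → Bool)
    ((Ico a0 a1).sigma (fun a => range (2 ^ (L - (a + 1)))))
    (fun _ : (Σ _ : ℕ, ℕ) => (a0 : ℝ)) (fun p x => x ∘ swp L p.1 p.2)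
    (nset L a0 a1 κ) (nwt L a0 κ C) (nmap L a0 κ) ?_ F
  · rw [Finset.sum_sigma, sum_nset] at key
    exact key
  · intro g hg
    rw [Finset.sum_sigma, sum_nset]
    simp only [nwt, nmap]
    have h2 := mul_le_mul_of_nonneg_right (hM L a0 a1 κ ha0 hκ h01 h1 haL g hg)
      (by positivity : (0 : ℝ) ≤ 2 ^ (2 ^ L))
    have e1 : (a0 : ℝ) * (∑ a ∈ Ico a0 a1, ∑ j ∈ range (2 ^ (L - (a + 1))),
          av (fun x => |g x - g (x ∘ swp L a j)|)) * 2 ^ (2 ^ L)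
        = ∑ a ∈ Ico a0 a1, ∑ j ∈ range (2 ^ (L - (a + 1))),
          (a0 : ℝ) * ∑ x, |g x - g (x ∘ swp L a j)| := by
      rw [Finset.mul_sum, Finset.sum_mul]
      refine Finset.sum_congr rfl (fun a _ => ?_)
      rw [Finset.mul_sum, Finset.sum_mul]
      refine Finset.sum_congr rfl (fun j _ => ?_)
      rw [← av_mul]; ring
    have e2 : (2 * (a0 : ℝ) * ∑ a ∈ Ico a0 a1, ∑ k ∈ range (2 ^ (L - (a + κ))),
            av (fun x => |g x - g (x ∘ rot L (a + κ) k (2 ^ a))|)) * 2 ^ (2 ^ L)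
        = ∑ a ∈ Ico a0 a1, ∑ k ∈ range (2 ^ (L - (a + κ))), (2 * (a0 : ℝ)) *
            ∑ x, |g x - g (x ∘ rot L (a + κ) k (2 ^ a))| := by
      rw [Finset.mul_sum, Finset.sum_mul]
      refine Finset.sum_congr rfl (fun a _ => ?_)
      rw [Finset.mul_sum, Finset.sum_mul]
      refine Finset.sum_congr rfl (fun j _ => ?_)
      rw [← av_mul]; ring
    have e3 : (C * κ * (∑ i, inf g i
            + 2 ^ a0 * ∑ j ∈ range (2 ^ (L - a0)), av (fun x => |g x - g (x ∘ rot L a0 j 1)|)))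
            * 2 ^ (2 ^ L)
        = ∑ i, (C * κ) * ∑ x, |g x - g (flip i x)|
            + ∑ j ∈ range (2 ^ (L - a0)), (C * κ * 2 ^ a0) * ∑ x, |g x - g (x ∘ rot L a0 j 1)| := by
      have e4 : ∑ i, (C * κ) * ∑ x, |g x - g (flip i x)|
          = (C * κ) * (∑ i, inf g i) * 2 ^ (2 ^ L) := by
        rw [Finset.mul_sum, Finset.sum_mul]
        refine Finset.sum_congr rfl (fun i _ => ?_)
        rw [← av_mul]; unfold inf; ring
      have e5 : ∑ j ∈ range (2 ^ (L - a0)), (C * κ * 2 ^ a0) * ∑ x, |g x - g (x ∘ rot L a0 j 1)|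
          = (C * κ * 2 ^ a0) * (∑ j ∈ range (2 ^ (L - a0)),
              av (fun x => |g x - g (x ∘ rot L a0 j 1)|)) * 2 ^ (2 ^ L) := by
        rw [Finset.mul_sum, Finset.sum_mul]
        refine Finset.sum_congr rfl (fun j _ => ?_)
        rw [← av_mul]; ring
      rw [e4, e5]; ring
    rw [add_mul, e1, e2, e3] at h2
    exact h2


lemma pow_bound (k : ℕ) (hk : 6 ≤ k) : 6 * k + 16 ≤ 2 ^ k := by
  induction k, hk using Nat.le_induction with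
  | base => norm_num
  | succ n hn ih =>
    have h64 : 2 ^ 6 ≤ 2 ^ n := Nat.pow_le_pow_right (by norm_num) hn
    rw [pow_succ]; omega

lemma params (L k κ : ℕ) (hL : 64 ≤ L) (hk : k = Nat.log 2 L) (hκ : κ = 2 * (k + 1)) :
    2 ^ k ≤ L ∧ L < 2 ^ (k + 1) ∧ 2 * (L / 3) + κ ≤ L + 1 ∧ 16 ≤ L / 3 := by
  have hL0 : L ≠ 0 := by omega
  have hk1 : 2 ^ k ≤ L := by rw [hk]; exact Nat.pow_log_le_self 2 hL0
  have hk2 : L < 2 ^ (k + 1) := by rw [hk]; exact Nat.lt_pow_succ_log_self (by norm_num) L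
  have hk6 : 6 ≤ k := by
    by_contra h
    have : 2 ^ (k + 1) ≤ 2 ^ 6 := Nat.pow_le_pow_right (by norm_num) (by omega)
    omega
  have hpow := pow_bound k hk6
  exact ⟨hk1, hk2, by omega, by omega⟩

/-- the numeric end of the proof -/
lemma numeric (L a0 k κ : ℕ) (C A B N : ℝ) (hL : 64 ≤ L) (ha0 : a0 = L / 3)
    (hk : k = Nat.log 2 L) (hκ : κ = 2 * (k + 1)) (hC : 0 < C) (hA : 0 ≤ A) (hB : 0 ≤ B)
    (hN0 : 0 < N)
    (hfin : (a0 : ℝ) * (a0 * ((1 / 128 : ℝ) * 2 ^ L * N))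
      ≤ B * (a0 * (4 * a0 * (A * N) * 2 ^ (L - κ))
          + (C * κ * (A * N) * 2 ^ L + 2 * (C * κ) * (A * N) * 2 ^ L))) :
    1 / (2048 * (1 + 18 * C)) * (L : ℝ) ^ 2 / Real.log L ≤ A * B := by
  obtain ⟨hk1, hk2, hcond, ha01⟩ := params L k κ hL hk hκ
  have hLr : (64 : ℝ) ≤ L := by exact_mod_cast hL
  have hlog2 : (0.69 : ℝ) < Real.log 2 := by
    have := Real.log_two_gt_d9; linarith
  have hlogL : 4 ≤ Real.log L := by
    have h1 : Real.log 64 ≤ Real.log L := Real.log_le_log (by norm_num) hLr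
    have h2 : Real.log 64 = 6 * Real.log 2 := by
      rw [show (64 : ℝ) = 2 ^ 6 by norm_num, Real.log_pow]; norm_num
    linarith
  have hklog : (k : ℝ) * Real.log 2 ≤ Real.log L := by
    rw [← Real.log_pow]
    exact Real.log_le_log (by positivity) (by exact_mod_cast hk1)
  have hk0 : (0 : ℝ) ≤ k := Nat.cast_nonneg _
  have hκlog : (κ : ℝ) ≤ 6 * Real.log L := by
    rw [hκ]; push_cast
    nlinarith
  have hpowκ : (2 : ℝ) ^ (L - κ) * L ^ 2 ≤ 2 ^ L := by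
    have h1 : (L : ℝ) ^ 2 ≤ 2 ^ κ := by
      rw [hκ, mul_comm 2 (k + 1), pow_mul]
      have : (L : ℝ) ≤ 2 ^ (k + 1) := by exact_mod_cast hk2.le
      exact pow_le_pow_left₀ (by positivity) this 2
    have h2 : (2 : ℝ) ^ L = 2 ^ (L - κ) * 2 ^ κ := by
      rw [← pow_add]; congr 1; omega
    rw [h2]
    exact mul_le_mul_of_nonneg_left h1 (by positivity)
  have ha0r : (a0 : ℝ) ≤ L / 3 := by
    rw [le_div_iff₀ (by norm_num)]
    exact_mod_cast (by omega : a0 * 3 ≤ L)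
  have ha0l : (L : ℝ) / 4 ≤ a0 := by
    rw [div_le_iff₀ (by norm_num)]
    exact_mod_cast (by omega : L ≤ a0 * 4)
  have ha0p : (0 : ℝ) ≤ a0 := Nat.cast_nonneg _
  have hAB : 0 ≤ A * B := mul_nonneg hA hB
  have hpos : 0 < N * 2 ^ L := by positivity
  -- first term of the right side
  have h1 : (a0 : ℝ) * a0 * 4 * 2 ^ (L - κ) ≤ 2 ^ L := by
    have h2 : (a0 : ℝ) * a0 * 4 ≤ L ^ 2 := by nlinarith
    calc (a0 : ℝ) * a0 * 4 * 2 ^ (L - κ) ≤ L ^ 2 * 2 ^ (L - κ) :=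
          mul_le_mul_of_nonneg_right h2 (by positivity)
      _ = 2 ^ (L - κ) * L ^ 2 := by ring
      _ ≤ 2 ^ L := hpowκ
  have hT1 : B * (a0 * (4 * a0 * (A * N) * 2 ^ (L - κ))) ≤ (A * B) * (N * 2 ^ L) := by
    have h3 := mul_le_mul_of_nonneg_left h1 (mul_nonneg hAB hN0.le)
    calc B * (a0 * (4 * a0 * (A * N) * 2 ^ (L - κ)))
        = (A * B * N) * ((a0 : ℝ) * a0 * 4 * 2 ^ (L - κ)) := by ring
      _ ≤ (A * B * N) * 2 ^ L := h3
      _ = _ := by ring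
  have hT2 : B * (C * κ * (A * N) * 2 ^ L + 2 * (C * κ) * (A * N) * 2 ^ L)
      ≤ (A * B) * (18 * C * Real.log L) * (N * 2 ^ L) := by
    have h1 : C * κ ≤ C * (6 * Real.log L) := mul_le_mul_of_nonneg_left hκlog hC.le
    have h2 : 0 ≤ 3 * ((A * B) * (N * 2 ^ L)) :=
      mul_nonneg (by norm_num) (mul_nonneg hAB hpos.le)
    have h3 := mul_le_mul_of_nonneg_left h1 h2
    calc B * (C * κ * (A * N) * 2 ^ L + 2 * (C * κ) * (A * N) * 2 ^ L)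
        = 3 * ((A * B) * (N * 2 ^ L)) * (C * κ) := by ring
      _ ≤ 3 * ((A * B) * (N * 2 ^ L)) * (C * (6 * Real.log L)) := h3
      _ = _ := by ring
  have hfin3 : (a0 : ℝ) * a0 / 128 ≤ (A * B) * (1 + 18 * C * Real.log L) := by
    have h1 : (a0 : ℝ) * a0 / 128 * (N * 2 ^ L)
        ≤ (A * B) * (1 + 18 * C * Real.log L) * (N * 2 ^ L) := by
      calc (a0 : ℝ) * a0 / 128 * (N * 2 ^ L) = (a0 : ℝ) * (a0 * ((1 / 128 : ℝ) * 2 ^ L * N)) := by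
            ring
        _ ≤ B * (a0 * (4 * a0 * (A * N) * 2 ^ (L - κ)))
          + B * (C * κ * (A * N) * 2 ^ L + 2 * (C * κ) * (A * N) * 2 ^ L) := by
            rw [← mul_add]; exact hfin
        _ ≤ (A * B) * (N * 2 ^ L) + (A * B) * (18 * C * Real.log L) * (N * 2 ^ L) :=
            add_le_add hT1 hT2
        _ = _ := by ring
    exact le_of_mul_le_mul_right h1 hpos
  have hlogpos : 0 < Real.log L := by linarith
  have h9 : (1 + 18 * C * Real.log L) ≤ (1 + 18 * C) * Real.log L := by nlinarith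
  have h10 : (L : ℝ) ^ 2 / 2048 ≤ (a0 : ℝ) * a0 / 128 := by nlinarith
  have h11 : (L : ℝ) ^ 2 / 2048 ≤ (A * B) * ((1 + 18 * C) * Real.log L) :=
    h10.trans (hfin3.trans (mul_le_mul_of_nonneg_left h9 hAB))
  rw [div_le_iff₀ hlogpos]
  have hCp : (0 : ℝ) < 1 + 18 * C := by positivity
  have h12 : 1 / (2048 * (1 + 18 * C)) * (L : ℝ) ^ 2 = (L : ℝ) ^ 2 / 2048 / (1 + 18 * C) := by
    field_simp
  rw [h12, div_le_iff₀ hCp]
  linarith

lemma card_Ico_real (a0 : ℕ) : ((Ico a0 (2 * a0)).card : ℝ) = a0 := by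
  rw [Nat.card_Ico]; congr 1; omega

lemma card_cube (L : ℕ) : (Fintype.card (Fin (2 ^ L) → Bool) : ℝ) = 2 ^ (2 ^ L) := by
  rw [Fintype.card_fun, Fintype.card_bool, Fintype.card_fin]; push_cast; rfl

/-- lower bound for the left side -/
lemma low_side (L a0 : ℕ) (B : ℝ) (t : List Bool) (F : (Fin (2 ^ L) → Bool) → ell1)
    (h16 : 16 ≤ a0) (hL : 2 * a0 ≤ L)
    (hinv : ∀ x y, (ED (word x ++ t) (word y ++ t) : ℝ) ≤ B * ‖F x - F y‖) :
    (a0 : ℝ) * (a0 * ((1 / 128 : ℝ) * 2 ^ L * 2 ^ (2 ^ L)))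
      ≤ B * ∑ a ∈ Ico a0 (2 * a0), ∑ j ∈ range (2 ^ (L - (a + 1))),
          (a0 : ℝ) * ∑ x, ‖F x - F (x ∘ swp L a j)‖ := by
  have h1 : ∀ a ∈ Ico a0 (2 * a0), ∀ j ∈ range (2 ^ (L - (a + 1))),
      (a0 : ℝ) * ((1 / 64 : ℝ) * 2 ^ a * 2 ^ (2 ^ L))
        ≤ B * ((a0 : ℝ) * ∑ x, ‖F x - F (x ∘ swp L a j)‖) := by
    intro a ha j hj
    rw [Finset.mem_Ico] at ha
    rw [Finset.mem_range] at hj
    have hf := far L a j (by omega) hj (by omega) t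
    have h2 : ∑ x : Fin (2 ^ L) → Bool, (ED (word x ++ t) (word (x ∘ swp L a j) ++ t) : ℝ)
        ≤ B * ∑ x, ‖F x - F (x ∘ swp L a j)‖ := by
      rw [Finset.mul_sum]
      exact Finset.sum_le_sum (fun x _ => hinv x _)
    have h3 := mul_le_mul_of_nonneg_left (hf.trans h2) (Nat.cast_nonneg a0 : (0 : ℝ) ≤ a0)
    linarith
  rw [Finset.mul_sum]
  have h2 : ∀ a ∈ Ico a0 (2 * a0), (a0 : ℝ) * ((1 / 128 : ℝ) * 2 ^ L * 2 ^ (2 ^ L))
      ≤ B * ∑ j ∈ range (2 ^ (L - (a + 1))), (a0 : ℝ) * ∑ x, ‖F x - F (x ∘ swp L a j)‖ := by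
    intro a ha
    rw [Finset.mul_sum]
    refine le_trans ?_ (Finset.sum_le_sum (h1 a ha))
    rw [Finset.sum_const, Finset.card_range, nsmul_eq_mul]
    rw [Finset.mem_Ico] at ha
    have e : (2 : ℝ) ^ L = 2 ^ (L - (a + 1)) * 2 ^ a * 2 := by
      rw [← pow_add, ← pow_succ]; congr 1; omega
    rw [e]
    push_cast
    exact le_of_eq (by ring)
  refine le_trans ?_ (Finset.sum_le_sum h2)
  rw [Finset.sum_const, nsmul_eq_mul, card_Ico_real]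

lemma sum_near {L : ℕ} {A : ℝ} (hA : 0 ≤ A) (t : List Bool) (F : (Fin (2 ^ L) → Bool) → ell1)
    (hlip : ∀ x y, ‖F x - F y‖ ≤ A * (ED (word x ++ t) (word y ++ t) : ℝ))
    (G : (Fin (2 ^ L) → Bool) → (Fin (2 ^ L) → Bool)) (D : ℕ)
    (hD : ∀ x, ED (word x ++ t) (word (G x) ++ t) ≤ D) :
    ∑ x, ‖F x - F (G x)‖ ≤ 2 ^ (2 ^ L) * (A * D) := by
  calc ∑ x, ‖F x - F (G x)‖ ≤ ∑ _x : Fin (2 ^ L) → Bool, A * (D : ℝ) :=
        Finset.sum_le_sum (fun x _ => (hlip x _).trans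
          (mul_le_mul_of_nonneg_left (by exact_mod_cast hD x) hA))
    _ = 2 ^ (2 ^ L) * (A * D) := by
        rw [Finset.sum_const, nsmul_eq_mul, Finset.card_univ, card_cube]

lemma side1 (L a0 κ : ℕ) (A : ℝ) (hA : 0 ≤ A) (t : List Bool) (F : (Fin (2 ^ L) → Bool) → ell1)
    (hlip : ∀ x y, ‖F x - F y‖ ≤ A * (ED (word x ++ t) (word y ++ t) : ℝ))
    (hκ : 2 * a0 + κ ≤ L + 1) (h1κ : 1 ≤ κ) :
    ∑ a ∈ Ico a0 (2 * a0), ∑ k ∈ range (2 ^ (L - (a + κ))), (2 * (a0 : ℝ)) *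
            ∑ x, ‖F x - F (x ∘ rot L (a + κ) k (2 ^ a))‖
      ≤ a0 * (4 * a0 * (A * 2 ^ (2 ^ L)) * 2 ^ (L - κ)) := by
  have h1 : ∀ a ∈ Ico a0 (2 * a0), ∑ k ∈ range (2 ^ (L - (a + κ))), (2 * (a0 : ℝ)) *
          ∑ x, ‖F x - F (x ∘ rot L (a + κ) k (2 ^ a))‖
          ≤ 4 * a0 * (A * 2 ^ (2 ^ L)) * 2 ^ (L - κ) := by
    intro a ha
    rw [Finset.mem_Ico] at ha
    have h2 : ∀ k ∈ range (2 ^ (L - (a + κ))), (2 * (a0 : ℝ)) *
          ∑ x, ‖F x - F (x ∘ rot L (a + κ) k (2 ^ a))‖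
          ≤ (2 * a0) * (2 ^ (2 ^ L) * (A * ((2 * 2 ^ a : ℕ) : ℝ))) := by
      intro k _
      refine mul_le_mul_of_nonneg_left (sum_near hA t F hlip _ _ (fun x => ?_)) (by positivity)
      exact ED_rot (L := L) (c := a + κ) k (2 ^ a) (by omega)
        (Nat.pow_le_pow_right (by norm_num) (by omega)) x t
    refine (Finset.sum_le_sum h2).trans ?_
    rw [Finset.sum_const, Finset.card_range, nsmul_eq_mul]
    have e : (2 : ℝ) ^ (L - κ) = 2 ^ (L - (a + κ)) * 2 ^ a := by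
      rw [← pow_add]; congr 1; omega
    rw [e]
    push_cast
    exact le_of_eq (by ring)
  refine (Finset.sum_le_sum h1).trans ?_
  rw [Finset.sum_const, nsmul_eq_mul, card_Ico_real]

lemma side2 (L κ : ℕ) (A C : ℝ) (hC : 0 < C) (hA : 0 ≤ A) (t : List Bool)
    (F : (Fin (2 ^ L) → Bool) → ell1)
    (hlip : ∀ x y, ‖F x - F y‖ ≤ A * (ED (word x ++ t) (word y ++ t) : ℝ)) :
    ∑ i : Fin (2 ^ L), (C * κ) * ∑ x, ‖F x - F (flip i x)‖
      ≤ C * κ * (A * 2 ^ (2 ^ L)) * 2 ^ L := by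
  have h1 : ∀ i ∈ (Finset.univ : Finset (Fin (2 ^ L))),
      (C * κ) * ∑ x, ‖F x - F (flip i x)‖ ≤ (C * κ) * (2 ^ (2 ^ L) * (A * ((1 : ℕ) : ℝ))) := by
    intro i _
    exact mul_le_mul_of_nonneg_left (sum_near hA t F hlip _ _ (fun x => ED_flip i x t))
      (by positivity)
  refine (Finset.sum_le_sum h1).trans ?_
  rw [Finset.sum_const, nsmul_eq_mul, Finset.card_univ, Fintype.card_fin]
  push_cast
  exact le_of_eq (by ring)

lemma side3 (L a0 κ : ℕ) (A C : ℝ) (hC : 0 < C) (hA : 0 ≤ A) (t : List Bool)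
    (F : (Fin (2 ^ L) → Bool) → ell1) (h0 : a0 ≤ L)
    (hlip : ∀ x y, ‖F x - F y‖ ≤ A * (ED (word x ++ t) (word y ++ t) : ℝ)) :
    ∑ j ∈ range (2 ^ (L - a0)), (C * κ * 2 ^ a0) * ∑ x, ‖F x - F (x ∘ rot L a0 j 1)‖
      ≤ 2 * (C * κ) * (A * 2 ^ (2 ^ L)) * 2 ^ L := by
  have h1 : ∀ j ∈ range (2 ^ (L - a0)),
      (C * κ * 2 ^ a0) * ∑ x, ‖F x - F (x ∘ rot L a0 j 1)‖
        ≤ (C * κ * 2 ^ a0) * (2 ^ (2 ^ L) * (A * ((2 * 1 : ℕ) : ℝ))) := by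
    intro j _
    refine mul_le_mul_of_nonneg_left (sum_near hA t F hlip _ _ (fun x => ?_)) (by positivity)
    exact ED_rot (L := L) (c := a0) j 1 h0 (Nat.one_le_two_pow) x t
  refine (Finset.sum_le_sum h1).trans ?_
  rw [Finset.sum_const, Finset.card_range, nsmul_eq_mul]
  have e : (2 : ℝ) ^ L = 2 ^ (L - a0) * 2 ^ a0 := by
    rw [← pow_add]; congr 1; omega
  rw [e]
  push_cast
  exact le_of_eq (by ring)

end AB

open AB in
theorem lower_AB : ∃ c : ℝ, 0 < c ∧ ∃ L0 : ℕ, ∀ L ≥ L0, ∀ (t : List Bool)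
    (F : (Fin (2 ^ L) → Bool) → ell1) (A B : ℝ), 0 ≤ A → 0 ≤ B →
    (∀ x y, ‖F x - F y‖ ≤ A * (ED (word x ++ t) (word y ++ t) : ℝ)) →
    (∀ x y, (ED (word x ++ t) (word y ++ t) : ℝ) ≤ B * ‖F x - F y‖) →
      c * (L : ℝ) ^ 2 / Real.log L ≤ A * B := by
  obtain ⟨C, hC, hM⟩ := main_l1
  refine ⟨1 / (2048 * (1 + 18 * C)), by positivity, 64, ?_⟩
  intro L hL t F A B hA hB hlip hinv
  obtain ⟨hk1, hk2, hcond, ha01⟩ := params L (Nat.log 2 L) (2 * (Nat.log 2 L + 1)) hL rfl rfl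
  have hmain := hM L (L / 3) (2 * (L / 3)) (2 * (Nat.log 2 L + 1)) (by omega) (by omega)
    (by omega) hcond (by omega) F
  have hlow := low_side L (L / 3) B t F ha01 (by omega) hinv
  have hR1 := side1 L (L / 3) (2 * (Nat.log 2 L + 1)) A hA t F hlip hcond (by omega)
  have hR2 := side2 L (2 * (Nat.log 2 L + 1)) A C hC hA t F hlip
  have hR3 := side3 L (L / 3) (2 * (Nat.log 2 L + 1)) A C hC hA t F (by omega) hlip
  have hBR := mul_le_mul_of_nonneg_left (hmain.trans (add_le_add hR1 (add_le_add hR2 hR3))) hB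
  exact numeric L (L / 3) (Nat.log 2 L) (2 * (Nat.log 2 L + 1)) C A B (2 ^ (2 ^ L)) hL rfl rfl rfl
    hC hA hB (by positivity) (hlow.trans hBR)

end Vale.Agent.P238
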