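import Vale.Agent.P238.Base

/-!
P238: monotonicity of the number of blocks hit and telescoping.
-/

namespace Vale.Agent.P238

open Finset

theorem Nn_anti {L : ℕ} (a : ℕ) (S : Finset (Fin (2 ^ L))) : Nn (a + 1) S ≤ Nn a S := by
  unfold Nn
  have h : S.image (fun i => i.1 / 2 ^ (a + 1))
      = (S.image (fun i => i.1 / 2 ^ a)).image (fun k => k / 2) := by
    rw [Finset.image_image]
    refine Finset.image_congr (fun i _ => ?_)
    simp only [Function.comp]
    rw [Nat.div_div_eq_div_mul, pow_succ]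
  rw [h]
  exact Finset.card_image_le

lemma Nn_mono_le {L : ℕ} {a b : ℕ} (h : a ≤ b) (S : Finset (Fin (2 ^ L))) : Nn b S ≤ Nn a S := by
  induction b, h using Nat.le_induction with
  | base => exact le_refl _
  | succ n _ ih => exact (Nn_anti n S).trans ih

theorem tele {L : ℕ} (a0 a1 κ : ℕ) (S : Finset (Fin (2 ^ L))) :
    ∑ a ∈ Ico a0 a1, ((Nn a S : ℝ) - Nn (a + κ) S) ≤ κ * Nn a0 S := by
  induction κ with
  | zero => simp
  | succ k ih =>
    have h1 : ∑ a ∈ Ico a0 a1, ((Nn a S : ℝ) - Nn (a + (k + 1)) S)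
        = ∑ a ∈ Ico a0 a1, ((Nn a S : ℝ) - Nn (a + k) S)
          + ∑ a ∈ Ico a0 a1, ((Nn (a + k) S : ℝ) - Nn (a + 1 + k) S) := by
      rw [← Finset.sum_add_distrib]
      refine Finset.sum_congr rfl (fun a _ => ?_)
      rw [show a + (k + 1) = a + 1 + k by ring]
      ring
    have h2 : ∑ a ∈ Ico a0 a1, ((Nn (a + k) S : ℝ) - Nn (a + 1 + k) S) ≤ Nn a0 S := by
      rcases le_total a0 a1 with h | h
      · have h3 := Finset.sum_Ico_sub (fun a => - (Nn (a + k) S : ℝ)) h
        have h4 : ∑ a ∈ Ico a0 a1, ((Nn (a + k) S : ℝ) - Nn (a + 1 + k) S)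
            = ∑ a ∈ Ico a0 a1, (-(Nn (a + 1 + k) S : ℝ) - -(Nn (a + k) S : ℝ)) :=
          Finset.sum_congr rfl (fun a _ => by ring)
        rw [h4, h3]
        have h5 : (Nn (a0 + k) S : ℝ) ≤ Nn a0 S := by
          exact_mod_cast Nn_mono_le (Nat.le_add_right a0 k) S
        have h6 : (0 : ℝ) ≤ Nn (a1 + k) S := Nat.cast_nonneg _
        linarith
      · rw [Finset.Ico_eq_empty_of_le h]
        simp
    rw [h1]
    push_cast
    linarith

end Vale.Agent.P238
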