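import Vale.Agent.P238.Block

/-!
P238 [VLE]: the Krauthgamer-Rabani inequality in all blocks of level `a`.
-/

namespace Vale.Agent.P238

open Finset

namespace Vle

open Blk

lemma rotN_of_div {c j s i : ℕ} (h : i / 2 ^ c ≠ j) : rotN c j s i = i := by
  unfold rotN
  rw [if_neg h]

/-- rotating the content of a block and then gluing = gluing and rotating the block -/
lemma glue_rot {L a j : ℕ} (ha : a ≤ L) (y : Fin (2 ^ L) → Bool)
    (z : Fin (2 ^ a) → Bool) :
    glue L a j y (z ∘ rot a a 0 1) = (glue L a j y z) ∘ rot L a j 1 := by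
  funext i
  have hv : (rot L a j 1 i).1 = rotN a j 1 i.1 := rot_val j 1 ha i
  have hd : (rot L a j 1 i).1 / 2 ^ a = i.1 / 2 ^ a := by rw [hv, rotN_div]
  simp only [Function.comp]
  unfold glue
  by_cases h : i.1 / 2 ^ a = j
  · rw [if_pos h, if_pos (hd.trans h)]
    simp only [Function.comp]
    congr 1
    apply Fin.ext
    rw [rot_val 0 1 (le_refl a)]
    simp only
    have hm : i.1 % 2 ^ a / 2 ^ a = 0 := Nat.div_eq_of_lt (Nat.mod_lt _ (by positivity))
    rw [hv]
    unfold rotN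
    rw [if_pos hm, if_pos h]
    rw [Nat.mod_mod, zero_mul, zero_add, mul_comm, Nat.mul_add_mod, Nat.mod_mod]
  · rw [if_neg h, if_neg (fun h' => h (hd ▸ h'))]
    congr 1
    apply Fin.ext
    rw [hv, rotN_of_div h]

lemma glue_flip {L a j : ℕ} (ha : a ≤ L) (hj : j < 2 ^ (L - a)) (y : Fin (2 ^ L) → Bool)
    (z : Fin (2 ^ a) → Bool) (k : Fin (2 ^ a)) :
    glue L a j y (flip k z) = flip (emb ha hj k) (glue L a j y z) := by
  funext i
  unfold flip
  rw [glue_emb]
  by_cases h : i = emb ha hj k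
  · subst h
    rw [Function.update_self, glue_emb, Function.update_self]
  · rw [Function.update_of_ne h]
    unfold glue
    by_cases hi : i.1 / 2 ^ a = j
    · rw [if_pos hi, if_pos hi, Function.update_of_ne]
      intro h'
      apply h
      rw [← h', emb_of ha hj i hi]
    · rw [if_neg hi, if_neg hi]

/-- `S` hits `Nn a S` blocks -/
lemma Nn_sum {L a : ℕ} (ha : a ≤ L) (S : Finset (Fin (2 ^ L))) :
    (Nn a S : ℝ) = ∑ j ∈ range (2 ^ (L - a)),
      if j ∈ S.image (fun i => i.1 / 2 ^ a) then (1 : ℝ) else 0 := by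
  unfold Nn
  rw [← Finset.sum_filter, Finset.sum_const, nsmul_eq_mul, mul_one]
  congr 2
  ext j
  simp only [Finset.mem_filter, Finset.mem_range]
  constructor
  · intro h
    refine ⟨?_, h⟩
    obtain ⟨i, _, rfl⟩ := Finset.mem_image.1 h
    exact div_lt_of_lt ha i.2
  · exact fun h => h.2

/-- the blocks partition the positions -/
lemma sum_blocks {L a : ℕ} (ha : a ≤ L) (G : Fin (2 ^ L) → ℝ) :
    ∑ j ∈ (range (2 ^ (L - a))).attach, ∑ k : Fin (2 ^ a),
      G (emb ha (Finset.mem_range.1 j.2) k) = ∑ i, G i := by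
  rw [← Finset.sum_product' (range (2 ^ (L - a))).attach Finset.univ
    (fun (j : {j // j ∈ range (2 ^ (L - a))}) (k : Fin (2 ^ a)) =>
      G (emb ha (Finset.mem_range.1 j.2) k))]
  refine Finset.sum_bij (fun p _ => emb ha (Finset.mem_range.1 p.1.2) p.2) ?_ ?_ ?_ ?_
  · intro p _
    exact Finset.mem_univ _
  · rintro ⟨⟨j, hj⟩, k⟩ _ ⟨⟨j', hj'⟩, k'⟩ _ h
    have h1 : j = j' := by
      rw [← emb_div ha (Finset.mem_range.1 hj) k, ← emb_div ha (Finset.mem_range.1 hj') k']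
      exact congrArg (fun i : Fin (2 ^ L) => i.1 / 2 ^ a) h
    subst h1
    have h2 := emb_inj ha (Finset.mem_range.1 hj) h
    simp only at h2
    rw [h2]
  · intro i _
    refine ⟨(⟨i.1 / 2 ^ a, Finset.mem_range.2 (div_lt_of_lt ha i.2)⟩,
      ⟨i.1 % 2 ^ a, Nat.mod_lt _ (by positivity)⟩), Finset.mem_product.2
        ⟨Finset.mem_attach _ _, Finset.mem_univ _⟩, ?_⟩
    exact emb_of ha _ i rfl
  · intro p _
    rfl

/-- the statement `kr` -/
def KR : Prop := ∃ C : ℝ, 0 < C ∧ ∀ (a : ℕ), 1 ≤ a → ∀ (g : (Fin (2 ^ a) → Bool) → ℝ),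
    (∀ x, g x = 0 ∨ g x = 1) →
      (a : ℝ) * vr g ≤ C * (∑ i, inf g i
        + 2 ^ a * av (fun x => |g x - g (x ∘ rot a a 0 1)|))

theorem v_le_of_kr (hkr : KR) : ∃ C : ℝ, 0 < C ∧ ∀ (L a : ℕ), 1 ≤ a → a ≤ L →
    ∀ f : (Fin (2 ^ L) → Bool) → ℝ, (∀ x, f x = 0 ∨ f x = 1) →
      (a : ℝ) * ∑ S : Finset (Fin (2 ^ L)), fo f S ^ 2 * (Nn a S : ℝ)
        ≤ C * (∑ i, inf f i
          + 2 ^ a * ∑ j ∈ range (2 ^ (L - a)), av (fun x => |f x - f (x ∘ rot L a j 1)|)) := by
  obtain ⟨C, hC, h⟩ := hkr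
  refine ⟨C, hC, fun L a ha1 ha f hf => ?_⟩
  have h1 : ∑ S : Finset (Fin (2 ^ L)), fo f S ^ 2 * (Nn a S : ℝ)
      = ∑ j ∈ range (2 ^ (L - a)), ∑ S : Finset (Fin (2 ^ L)),
        (if j ∈ S.image (fun i => i.1 / 2 ^ a) then fo f S ^ 2 else 0) := by
    rw [Finset.sum_comm]
    refine Finset.sum_congr rfl (fun S _ => ?_)
    rw [Nn_sum ha, Finset.mul_sum]
    refine Finset.sum_congr rfl (fun j _ => ?_)
    split_ifs <;> ring
  -- one block
  have key : ∀ (j : ℕ) (hj : j < 2 ^ (L - a)), (a : ℝ) * ∑ S : Finset (Fin (2 ^ L)),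
      (if j ∈ S.image (fun i => i.1 / 2 ^ a) then fo f S ^ 2 else 0)
        ≤ C * (∑ k : Fin (2 ^ a), inf f (emb ha hj k)
          + 2 ^ a * av (fun x => |f x - f (x ∘ rot L a j 1)|)) := by
    intro j hj
    rw [block_var L a j ha hj f, ← av_mul_left]
    refine le_trans (av_mono (fun y => h a ha1 (fun z => f (glue L a j y z))
      (fun z => hf _))) (le_of_eq ?_)
    rw [av_mul_left, av_add, av_sum, av_mul_left]
    congr 2
    · refine Finset.sum_congr rfl (fun k _ => ?_)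
      unfold inf
      rw [← av_glue L a j ha hj (fun x => |f x - f (flip (emb ha hj k) x)|)]
      simp only [glue_flip ha hj]
    · congr 1
      rw [← av_glue L a j ha hj (fun x => |f x - f (x ∘ rot L a j 1)|)]
      simp only [glue_rot ha]
  rw [h1, Finset.mul_sum, ← Finset.sum_attach]
  refine le_trans (Finset.sum_le_sum (fun j _ => key j.1 (Finset.mem_range.1 j.2)))
    (le_of_eq ?_)
  rw [← Finset.mul_sum, Finset.sum_add_distrib, sum_blocks ha (fun i => inf f i),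
    ← Finset.mul_sum,
    Finset.sum_attach (range (2 ^ (L - a))) (fun j => av (fun x => |f x - f (x ∘ rot L a j 1)|))]

end Vle

end Vale.Agent.P238
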