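import Vale.Agent.P238.Pars
import Vale.Agent.P238.Comb
import Vale.Agent.P238.Tel
import Vale.Agent.P238.Vle
import Vale.Agent.P238.Kr

/-!
P238: the main inequality for `0/1`-valued functions.
-/

namespace Vale.Agent.P238

open Finset

/-- for a `0/1`-valued function the `L¹` and the squared `L²` differences agree -/
lemma abs_eq_sq {X : Type*} {f : X → ℝ} (hf : ∀ x, f x = 0 ∨ f x = 1) (x y : X) :
    |f x - f y| = (f x - f y) ^ 2 := by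
  rcases hf x with h | h <;> rcases hf y with h' | h' <;> rw [h, h'] <;> norm_num

lemma av_perm {ι : Type*} [Fintype ι] [DecidableEq ι] {f : (ι → Bool) → ℝ}
    (hf : ∀ x, f x = 0 ∨ f x = 1) (σ : Equiv.Perm ι) :
    av (fun x => |f x - f (x ∘ σ)|) = ∑ S : Finset ι, (fo f S - fo f (S.image σ)) ^ 2 := by
  rw [← pars]
  congr 1
  funext x
  exact abs_eq_sq hf x _

theorem main_bool : ∃ C : ℝ, 0 < C ∧ ∀ (L a0 a1 κ : ℕ), 1 ≤ a0 → 1 ≤ κ → a0 ≤ a1 →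
    a1 + κ ≤ L + 1 → a0 ≤ L → ∀ f : (Fin (2 ^ L) → Bool) → ℝ, (∀ x, f x = 0 ∨ f x = 1) →
      (a0 : ℝ) * ∑ a ∈ Ico a0 a1, ∑ j ∈ range (2 ^ (L - (a + 1))),
          av (fun x => |f x - f (x ∘ swp L a j)|)
        ≤ 2 * (a0 : ℝ) * ∑ a ∈ Ico a0 a1, ∑ k ∈ range (2 ^ (L - (a + κ))),
            av (fun x => |f x - f (x ∘ rot L (a + κ) k (2 ^ a))|)
          + C * κ * (∑ i, inf f i
            + 2 ^ a0 * ∑ j ∈ range (2 ^ (L - a0)), av (fun x => |f x - f (x ∘ rot L a0 j 1)|)) := by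
  obtain ⟨C, hC, hV⟩ := Vle.v_le_of_kr kr
  refine ⟨8 * C, by positivity, ?_⟩
  intro L a0 a1 κ ha0 hκ h01 h1 haL f hf
  set E : ℝ := ∑ i, inf f i
    + 2 ^ a0 * ∑ j ∈ range (2 ^ (L - a0)), av (fun x => |f x - f (x ∘ rot L a0 j 1)|) with hE
  have hv := hV L a0 ha0 haL f hf
  -- inequality for each `a`
  have h2 : ∀ a ∈ Ico a0 a1, ∑ j ∈ range (2 ^ (L - (a + 1))),
        av (fun x => |f x - f (x ∘ swp L a j)|)
      ≤ 2 * ∑ k ∈ range (2 ^ (L - (a + κ))),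
          av (fun x => |f x - f (x ∘ rot L (a + κ) k (2 ^ a))|)
        + 8 * ∑ S : Finset (Fin (2 ^ L)), fo f S ^ 2 * ((Nn a S : ℝ) - Nn (a + κ) S) := by
    intro a ha
    rw [Finset.mem_Ico] at ha
    have h3 := comb L a (a + κ) (by omega) (by omega) (fo f)
    simp_rw [av_perm hf]
    exact h3
  have h3 := Finset.sum_le_sum h2
  rw [Finset.sum_add_distrib, ← Finset.mul_sum, ← Finset.mul_sum] at h3
  have h4 : ∑ a ∈ Ico a0 a1, ∑ S : Finset (Fin (2 ^ L)),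
      fo f S ^ 2 * ((Nn a S : ℝ) - Nn (a + κ) S)
      ≤ κ * ∑ S : Finset (Fin (2 ^ L)), fo f S ^ 2 * (Nn a0 S : ℝ) := by
    rw [Finset.sum_comm, Finset.mul_sum]
    refine Finset.sum_le_sum (fun S _ => ?_)
    rw [← Finset.mul_sum]
    have := mul_le_mul_of_nonneg_left (tele a0 a1 κ S) (sq_nonneg (fo f S))
    linarith
  have ha0' : (0 : ℝ) ≤ a0 := Nat.cast_nonneg _
  have hκ' : (0 : ℝ) ≤ κ := Nat.cast_nonneg _
  have h5 := mul_le_mul_of_nonneg_left h3 ha0'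
  have h6 := mul_le_mul_of_nonneg_left h4 ha0'
  have h7 := mul_le_mul_of_nonneg_left hv hκ'
  calc (a0 : ℝ) * ∑ a ∈ Ico a0 a1, ∑ j ∈ range (2 ^ (L - (a + 1))),
          av (fun x => |f x - f (x ∘ swp L a j)|)
      ≤ (a0 : ℝ) * (2 * ∑ a ∈ Ico a0 a1, ∑ k ∈ range (2 ^ (L - (a + κ))),
          av (fun x => |f x - f (x ∘ rot L (a + κ) k (2 ^ a))|)
        + 8 * ∑ a ∈ Ico a0 a1, ∑ S : Finset (Fin (2 ^ L)),
            fo f S ^ 2 * ((Nn a S : ℝ) - Nn (a + κ) S)) := h5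
    _ ≤ 2 * (a0 : ℝ) * ∑ a ∈ Ico a0 a1, ∑ k ∈ range (2 ^ (L - (a + κ))),
            av (fun x => |f x - f (x ∘ rot L (a + κ) k (2 ^ a))|) + 8 * C * κ * E := by
        nlinarith

end Vale.Agent.P238
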