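import Vale.Agent.P238.Base

/-!
Parseval for permutations of the coordinates.
-/

namespace Vale.Agent.P238

open Finset

theorem av_eq_EE {ι : Type*} [Fintype ι] [DecidableEq ι] (F : (ι → Bool) → ℝ) :
    av F = P063.EE (1 / 2) F := by
  unfold av P063.EE
  have h : ∀ x : ι → Bool, ∏ i, P063.wt (1 / 2) (x i) = (1 / 2) ^ Fintype.card ι := by
    intro x
    have h2 : ∀ b : Bool, P063.wt (1 / 2) b = 1 / 2 := by
      intro b
      unfold P063.wt
      split_ifs <;> norm_num
    simp only [h2, Finset.prod_const, Finset.card_univ]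
  simp_rw [h]
  rw [← Finset.mul_sum, div_pow, one_pow]
  ring

theorem av_comp_perm {ι : Type*} [Fintype ι] [DecidableEq ι] (σ : Equiv.Perm ι)
    (F : (ι → Bool) → ℝ) : av (fun x => F (x ∘ σ)) = av F := by

  unfold av
  congr 1
  exact Fintype.sum_equiv (Equiv.arrowCongr σ.symm (Equiv.refl Bool)) _ _ (fun x => by
    congr 1)

theorem chi_comp_perm {ι : Type*} (p : ℝ) (σ : Equiv.Perm ι)
    [DecidableEq ι] (S : Finset ι) (x : ι → Bool) :
    P063.chi p (S.image σ) x = P063.chi p S (x ∘ σ) := by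
  unfold P063.chi
  rw [Finset.prod_image (fun a _ b _ h => σ.injective h)]
  rfl

theorem fo_comp_perm {ι : Type*} [Fintype ι] [DecidableEq ι] (σ : Equiv.Perm ι)
    (f : (ι → Bool) → ℝ) (S : Finset ι) :
    fo (fun x => f (x ∘ σ)) (S.image σ) = fo f S := by
  unfold fo P063.fc
  rw [← av_eq_EE, ← av_eq_EE, ← av_comp_perm σ (fun x => f x * P063.chi (1 / 2) S x)]
  congr 1
  funext x
  rw [chi_comp_perm]

theorem fo_sub {ι : Type*} [Fintype ι] [DecidableEq ι] (f g : (ι → Bool) → ℝ) (S : Finset ι) :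
    fo (fun x => f x - g x) S = fo f S - fo g S := by
  unfold fo P063.fc
  rw [← P063.EE_sub]
  congr 1
  funext x
  ring

theorem pars {ι : Type*} [Fintype ι] [DecidableEq ι] (σ : Equiv.Perm ι)
    (f : (ι → Bool) → ℝ) :
    av (fun x => (f x - f (x ∘ σ)) ^ 2) = ∑ S : Finset ι, (fo f S - fo f (S.image σ)) ^ 2 := by
  rw [av_eq_EE, ← P063.parseval (by norm_num) (by norm_num)]
  have h : ∀ S : Finset ι, P063.fc (1 / 2) (fun x => f x - f (x ∘ σ)) (S.image σ)
      = fo f (S.image σ) - fo f S := by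
    intro S
    have := fo_sub f (fun x => f (x ∘ σ)) (S.image σ)
    rw [fo_comp_perm] at this
    exact this
  have h2 : ∑ S : Finset ι, P063.fc (1 / 2) (fun x => f x - f (x ∘ σ)) S ^ 2
      = ∑ S : Finset ι, P063.fc (1 / 2) (fun x => f x - f (x ∘ σ)) (S.image σ) ^ 2 := by
    have hinj : Function.Injective (fun S : Finset ι => S.image σ) :=
      Finset.image_injective σ.injective
    have hb : Function.Bijective (fun S : Finset ι => S.image σ) :=
      Finite.injective_iff_bijective.1 hinj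
    exact (Fintype.sum_bijective _ hb _ _ (fun S => rfl)).symm
  rw [h2]
  exact Finset.sum_congr rfl (fun S _ => by rw [h]; ring)

end Vale.Agent.P238
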