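import Vale.Agent.P238.Base

/-!
P238 skeleton (do NOT import). Each section is one file: copy the statement verbatim into the file
named in the comment, namespace `Vale.Agent.P238`, import `Vale.Agent.P238.Base` (and other files
if needed), auxiliary lemmas in a sub-namespace or with a prefix.
-/

namespace Vale.Agent.P238

open Finset

/- [CUT] Cut.lean : from 0/1-valued functions to ℓ₁-valued functions (co-area) -/
theorem cut_to_l1 {X κ μ : Type*} [Fintype X] (s : Finset κ) (u : κ → ℝ) (m : κ → X → X)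
    (t : Finset μ) (w : μ → ℝ) (n : μ → X → X)
    (h : ∀ g : X → ℝ, (∀ x, g x = 0 ∨ g x = 1) →
      ∑ i ∈ s, u i * ∑ x, |g x - g (m i x)| ≤ ∑ j ∈ t, w j * ∑ x, |g x - g (n j x)|)
    (F : X → ell1) :
    ∑ i ∈ s, u i * ∑ x, ‖F x - F (m i x)‖ ≤ ∑ j ∈ t, w j * ∑ x, ‖F x - F (n j x)‖ := by
  sorry

/- [EDU] EdUp.lean : metric properties and upper bounds for the edit distance -/
theorem reach_ED {α : Type*} (x y : List α) : Reach (ED x y) x y := by sorry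

theorem ED_le {α : Type*} {k : ℕ} {x y : List α} (h : Reach k x y) : ED x y ≤ k := by sorry

theorem ED_comm {α : Type*} (x y : List α) : ED x y = ED y x := by sorry

theorem ED_triangle {α : Type*} (x y z : List α) : ED x z ≤ ED x y + ED y z := by sorry

theorem ED_eq_zero {α : Type*} (x y : List α) : ED x y = 0 ↔ x = y := by sorry

theorem ED_flip {n : ℕ} (i : Fin n) (x : Fin n → Bool) (t : List Bool) :
    ED (word x ++ t) (word (flip i x) ++ t) ≤ 1 := by sorry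

theorem ED_rot {L c : ℕ} (j s : ℕ) (hc : c ≤ L) (hs : s ≤ 2 ^ c) (x : Fin (2 ^ L) → Bool)
    (t : List Bool) : ED (word x ++ t) (word (x ∘ rot L c j s) ++ t) ≤ 2 * s := by sorry

/- [EDB] EdBlock.lean : localisation lemma (alignments) -/
theorem ED_block {α : Type*} (u P Q v : List α) (h : P.length = Q.length) :
    ED P Q ≤ 2 * ED (u ++ (P ++ (Q ++ v))) (u ++ (Q ++ (P ++ v))) := by sorry

/- [BALL] Ball.lean : number of words close to a given word -/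
theorem ball_card (q m : ℕ) (P : List Bool) (hP : P.length = q) :
    (((Finset.univ : Finset (Fin q → Bool)).filter (fun Q => ED P (word Q) ≤ m)).card : ℝ)
      ≤ 2 * 16 ^ m * (3 / 2) ^ q := by sorry

/- [FAR] Far.lean : the swap moves a typical word far away (uses EDB, BALL) -/
theorem far (L a j : ℕ) (ha : a + 1 ≤ L) (hj : j < 2 ^ (L - (a + 1))) (h4 : 4 ≤ a)
    (t : List Bool) :
    (1 / 64 : ℝ) * 2 ^ a * 2 ^ (2 ^ L)
      ≤ ∑ x : Fin (2 ^ L) → Bool, (ED (word x ++ t) (word (x ∘ swp L a j) ++ t) : ℝ) := by sorry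

/- [KKL] Kkl.lean : Kahn-Kalai-Linial / Talagrand from the log-Sobolev library of P063 -/
theorem kkl : ∃ C : ℝ, 0 < C ∧ ∀ (n : ℕ) (g : (Fin n → Bool) → ℝ), (∀ x, g x = 0 ∨ g x = 1) →
    ∀ M : ℝ, 0 < M → M < 1 → (∀ i, inf g i ≤ M) →
      vr g * Real.log (1 / M) ≤ C * ∑ i, inf g i := by sorry

/- [KR] Kr.lean : Krauthgamer-Rabani inequality (uses KKL) -/
theorem kr : ∃ C : ℝ, 0 < C ∧ ∀ (a : ℕ), 1 ≤ a → ∀ (g : (Fin (2 ^ a) → Bool) → ℝ),
    (∀ x, g x = 0 ∨ g x = 1) →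
      (a : ℝ) * vr g ≤ C * (∑ i, inf g i
        + 2 ^ a * av (fun x => |g x - g (x ∘ rot a a 0 1)|)) := by sorry

/- [PARS] Pars.lean : Parseval for permutations of coordinates (P063 library) -/
theorem pars {ι : Type*} [Fintype ι] [DecidableEq ι] (σ : Equiv.Perm ι)
    (f : (ι → Bool) → ℝ) :
    av (fun x => (f x - f (x ∘ σ)) ^ 2) = ∑ S : Finset ι, (fo f S - fo f (S.image σ)) ^ 2 := by
  sorry

/- [BLK] Block.lean : replace the content of a dyadic block; conditional variance = Fourier weight -/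
/-- the word `y` with the content of the `j`-th block of length `2 ^ a` replaced by `z` -/
def glue (L a j : ℕ) (y : Fin (2 ^ L) → Bool) (z : Fin (2 ^ a) → Bool) : Fin (2 ^ L) → Bool :=
  fun i => if i.1 / 2 ^ a = j then z ⟨i.1 % 2 ^ a, Nat.mod_lt _ (by positivity)⟩ else y i

theorem av_glue (L a j : ℕ) (ha : a ≤ L) (hj : j < 2 ^ (L - a)) (F : (Fin (2 ^ L) → Bool) → ℝ) :
    av (fun y => av (fun z => F (glue L a j y z))) = av F := by sorry

theorem block_var (L a j : ℕ) (ha : a ≤ L) (hj : j < 2 ^ (L - a))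
    (f : (Fin (2 ^ L) → Bool) → ℝ) :
    ∑ S : Finset (Fin (2 ^ L)), (if j ∈ S.image (fun i => i.1 / 2 ^ a) then fo f S ^ 2 else 0)
      = av (fun y => vr (fun z => f (glue L a j y z))) := by sorry

/- [VLE] Vle.lean : the Krauthgamer-Rabani inequality in all blocks of level `a` (uses KR, BLK) -/
theorem v_le : ∃ C : ℝ, 0 < C ∧ ∀ (L a : ℕ), 1 ≤ a → a ≤ L → ∀ f : (Fin (2 ^ L) → Bool) → ℝ,
    (∀ x, f x = 0 ∨ f x = 1) →
      (a : ℝ) * ∑ S : Finset (Fin (2 ^ L)), fo f S ^ 2 * (Nn a S : ℝ)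
        ≤ C * (∑ i, inf f i
          + 2 ^ a * ∑ j ∈ range (2 ^ (L - a)), av (fun x => |f x - f (x ∘ rot L a j 1)|)) := by
  sorry

/- [COMB] Comb.lean : the key combinatorial inequality for the Fourier coefficients -/
theorem comb (L a c : ℕ) (hac : a < c) (hc : c ≤ L) (A : Finset (Fin (2 ^ L)) → ℝ) :
    ∑ j ∈ range (2 ^ (L - (a + 1))), ∑ S, (A S - A (S.image (swp L a j))) ^ 2
      ≤ 2 * ∑ k ∈ range (2 ^ (L - c)), ∑ S, (A S - A (S.image (rot L c k (2 ^ a)))) ^ 2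
        + 8 * ∑ S, A S ^ 2 * ((Nn a S : ℝ) - Nn c S) := by sorry

/- [TEL] Tel.lean : telescoping -/
theorem Nn_anti {L : ℕ} (a : ℕ) (S : Finset (Fin (2 ^ L))) : Nn (a + 1) S ≤ Nn a S := by sorry

theorem tele {L : ℕ} (a0 a1 κ : ℕ) (S : Finset (Fin (2 ^ L))) :
    ∑ a ∈ Ico a0 a1, ((Nn a S : ℝ) - Nn (a + κ) S) ≤ κ * Nn a0 S := by sorry

/- [BOOL] Bool.lean : the main inequality for 0/1-valued functions (uses PARS, VLE, COMB, TEL) -/
theorem main_bool : ∃ C : ℝ, 0 < C ∧ ∀ (L a0 a1 κ : ℕ), 1 ≤ a0 → 1 ≤ κ → a0 ≤ a1 →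
    a1 + κ ≤ L + 1 → a0 ≤ L → ∀ f : (Fin (2 ^ L) → Bool) → ℝ, (∀ x, f x = 0 ∨ f x = 1) →
      (a0 : ℝ) * ∑ a ∈ Ico a0 a1, ∑ j ∈ range (2 ^ (L - (a + 1))),
          av (fun x => |f x - f (x ∘ swp L a j)|)
        ≤ 2 * (a0 : ℝ) * ∑ a ∈ Ico a0 a1, ∑ k ∈ range (2 ^ (L - (a + κ))),
            av (fun x => |f x - f (x ∘ rot L (a + κ) k (2 ^ a))|)
          + C * κ * (∑ i, inf f i
            + 2 ^ a0 * ∑ j ∈ range (2 ^ (L - a0)), av (fun x => |f x - f (x ∘ rot L a0 j 1)|)) := by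
  sorry

/- [AB] Final1.lean : lower bound for the product of Lipschitz constants
(uses CUT, EDU, FAR, BOOL) -/
theorem lower_AB : ∃ c : ℝ, 0 < c ∧ ∃ L0 : ℕ, ∀ L ≥ L0, ∀ (t : List Bool)
    (F : (Fin (2 ^ L) → Bool) → ell1) (A B : ℝ), 0 ≤ A → 0 ≤ B →
    (∀ x y, ‖F x - F y‖ ≤ A * (ED (word x ++ t) (word y ++ t) : ℝ)) →
    (∀ x y, (ED (word x ++ t) (word y ++ t) : ℝ) ≤ B * ‖F x - F y‖) →
      c * (L : ℝ) ^ 2 / Real.log L ≤ A * B := by sorry

/- [FINAL] Results/P238/... -/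
theorem result : ∃ c : ℝ, 0 < c ∧ ∃ N : ℕ, ∀ n ≥ N,
    c * Real.log n ^ 2 / Real.log (Real.log n) ≤ c1 (Fin n → Bool) (edDist n) := by sorry

end Vale.Agent.P238
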